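import Vale.Agent.P361.Thermo

/-!
# Low temperature asymptotics
-/

namespace Vale.Agent.P361

open Matrix Filter Topology

lemma sqrt_mul_gaussI {s : ℝ} (hs : 0 < s) :
    Real.sqrt s * gaussI s = (1 / Real.pi) * ∫ y in (0 : ℝ)..(Real.pi * Real.sqrt s), Real.exp (-1 * y ^ 2) := by
  have hss : 0 < Real.sqrt s := Real.sqrt_pos.mpr hs
  unfold gaussI
  have h5 := intervalIntegral.integral_comp_mul_right (a := 0) (b := Real.pi)
    (fun t => Real.exp (-1 * t ^ 2)) (c := Real.sqrt s) hss.ne'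
  have h6 : (fun x => Real.exp (-1 * (x * Real.sqrt s) ^ 2)) = fun t => Real.exp (-s * t ^ 2) := by
    ext x
    congr 1
    rw [mul_pow, Real.sq_sqrt hs.le]; ring
  rw [h6, zero_mul, smul_eq_mul] at h5
  rw [h5]
  field_simp

lemma tendsto_sqrt_gaussI : Tendsto (fun s : ℝ => Real.sqrt s * gaussI s) atTop
    (𝓝 (1 / (2 * Real.sqrt Real.pi))) := by
  have h1 : Tendsto (fun s : ℝ => (1 / Real.pi) *
      ∫ y in (0 : ℝ)..(Real.pi * Real.sqrt s), Real.exp (-1 * y ^ 2)) atTop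
      (𝓝 ((1 / Real.pi) * ∫ y in Set.Ioi (0 : ℝ), Real.exp (-1 * y ^ 2))) := by
    apply Tendsto.const_mul
    apply MeasureTheory.intervalIntegral_tendsto_integral_Ioi
    · exact (integrable_exp_neg_mul_sq one_pos).integrableOn
    · exact Tendsto.const_mul_atTop Real.pi_pos Real.tendsto_sqrt_atTop
  rw [integral_gaussian_Ioi] at h1
  have h2 : 1 / Real.pi * (Real.sqrt (Real.pi / 1) / 2) = 1 / (2 * Real.sqrt Real.pi) := by
    have hp : 0 < Real.sqrt Real.pi := Real.sqrt_pos.mpr Real.pi_pos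
    rw [div_one]
    have : Real.pi = Real.sqrt Real.pi * Real.sqrt Real.pi := (Real.mul_self_sqrt Real.pi_pos.le).symm
    field_simp
    nlinarith [Real.sq_sqrt Real.pi_pos.le]
  rw [h2] at h1
  refine h1.congr' ?_
  filter_upwards [eventually_gt_atTop 0] with s hs
  exact (sqrt_mul_gaussI hs).symm

lemma tendsto_sqrt_gaussI_scaled {c : ℝ} (hc : 0 < c) :
    Tendsto (fun β : ℝ => Real.sqrt β * gaussI (c * β)) atTop
    (𝓝 (1 / (2 * Real.sqrt (Real.pi * c)))) := by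
  have h1 : Tendsto (fun β : ℝ => c * β) atTop atTop := Tendsto.const_mul_atTop hc tendsto_id
  have h2 := (tendsto_sqrt_gaussI.comp h1).const_mul (1 / Real.sqrt c)
  have hsc : 0 < Real.sqrt c := Real.sqrt_pos.mpr hc
  have h3 : 1 / Real.sqrt c * (1 / (2 * Real.sqrt Real.pi)) = 1 / (2 * Real.sqrt (Real.pi * c)) := by
    rw [Real.sqrt_mul Real.pi_pos.le]
    have hp : 0 < Real.sqrt Real.pi := Real.sqrt_pos.mpr Real.pi_pos
    field_simp
  rw [h3] at h2
  refine h2.congr' ?_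
  filter_upwards [eventually_gt_atTop 0] with β hβ
  simp only [Function.comp_apply]
  rw [Real.sqrt_mul hc.le]
  field_simp

/-- finite-`M` truncation of the limiting constant, with comparison value `m₀` -/
noncomputable def constF (d M : ℕ) (m₀ : ℝ) : ℝ :=
  m₀ / (d / 2) * ∑ n ∈ Finset.range M,
    (1 / (2 * Real.sqrt (Real.pi * (((n : ℝ) + 1) * ((d : ℝ) / 2 * (d - m₀) / m₀))))) ^ 3

lemma constF_tendsto {d : ℕ} (hd : 1 ≤ d) (M : ℕ) :
    Tendsto (constF d M) (𝓝 ((d : ℝ) / 2)) (𝓝 (constF d M (d / 2))) := by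
  have hd' : (0 : ℝ) < d := by exact_mod_cast hd
  have hd2 : ((d : ℝ) / 2) ≠ 0 := by positivity
  apply ContinuousAt.tendsto
  unfold constF
  apply ContinuousAt.mul
  · exact continuousAt_id.div_const _
  · apply tendsto_finsetSum
    intro n _
    apply ContinuousAt.pow
    apply ContinuousAt.div continuousAt_const
    · apply ContinuousAt.mul continuousAt_const
      apply ContinuousAt.sqrt
      apply ContinuousAt.mul continuousAt_const
      apply ContinuousAt.mul continuousAt_const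
      apply ContinuousAt.div _ continuousAt_id hd2
      fun_prop
    · apply mul_ne_zero two_ne_zero
      apply (Real.sqrt_pos.mpr _).ne'
      have : (d : ℝ) - d / 2 = d / 2 := by ring
      rw [this]
      positivity

lemma constF_at {d : ℕ} (hd : 1 ≤ d) (M : ℕ) : constF d M (d / 2)
    = ∑ n ∈ Finset.range M, 1 / (((n : ℝ) + 1) ^ (3 / 2 : ℝ)) *
        (1 / (8 * Real.pi ^ (3 / 2 : ℝ) * ((d : ℝ) / 2) ^ (3 / 2 : ℝ))) := by
  have hd' : (0 : ℝ) < d := by exact_mod_cast hd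
  have hd2 : ((d : ℝ) / 2) ≠ 0 := by positivity
  unfold constF
  rw [div_self hd2, one_mul]
  refine Finset.sum_congr rfl fun n _ => ?_
  have h1 : (d : ℝ) / 2 * (d - d / 2) / (d / 2) = d / 2 := by
    have : (d : ℝ) - d / 2 = d / 2 := by ring
    rw [this]; field_simp
  rw [h1]
  have hpos : 0 ≤ Real.pi * (((n : ℝ) + 1) * ((d : ℝ) / 2)) := by positivity
  have h2 : Real.sqrt (Real.pi * (((n : ℝ) + 1) * ((d : ℝ) / 2))) ^ 3
      = Real.pi ^ (3 / 2 : ℝ) * (((n : ℝ) + 1) ^ (3 / 2 : ℝ) * ((d : ℝ) / 2) ^ (3 / 2 : ℝ)) := by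
    rw [← Real.mul_rpow (by positivity) (by positivity), ← Real.mul_rpow (by positivity) (by positivity),
      Real.sqrt_eq_rpow, ← Real.rpow_natCast, ← Real.rpow_mul hpos]
    norm_num
  rw [div_pow, mul_pow, h2]
  have h3 : 0 < ((n : ℝ) + 1) ^ (3 / 2 : ℝ) := by positivity
  have h4 : 0 < ((d : ℝ) / 2) ^ (3 / 2 : ℝ) := by positivity
  have h5 : 0 < Real.pi ^ (3 / 2 : ℝ) := by positivity
  field_simp
  ring

lemma zeta_re : (riemannZeta (3 / 2)).re = ∑' n : ℕ, 1 / (((n : ℝ) + 1) ^ (3 / 2 : ℝ)) := by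
  have h1 : (1 : ℝ) < ((3 / 2 : ℂ)).re := by norm_num
  rw [zeta_eq_tsum_one_div_nat_add_one_cpow h1]
  have h2 : ∀ n : ℕ, 1 / ((n : ℂ) + 1) ^ (3 / 2 : ℂ) = ((1 / (((n : ℝ) + 1) ^ (3 / 2 : ℝ)) : ℝ) : ℂ) := by
    intro n
    have : ((3 / 2 : ℂ)) = (((3 / 2 : ℝ)) : ℂ) := by push_cast; ring
    rw [this]
    push_cast
    rw [Complex.ofReal_cpow (by positivity)]
    push_cast
    rfl
  rw [tsum_congr h2, ← Complex.ofReal_tsum, Complex.ofReal_re]

lemma summable_zeta : Summable (fun n : ℕ => 1 / (((n : ℝ) + 1) ^ (3 / 2 : ℝ))) := by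
  have h := (summable_nat_add_iff 1).mpr
    (Real.summable_one_div_nat_rpow.mpr (by norm_num : (1 : ℝ) < 3 / 2))
  refine h.congr fun n => ?_
  push_cast
  rfl

/-- the constant predicted by ideal spin waves -/
noncomputable def blochConst (d : ℕ) : ℝ :=
  (riemannZeta (3 / 2)).re / (8 * Real.pi ^ (3 / 2 : ℝ) * ((d : ℝ) / 2) ^ (3 / 2 : ℝ))

lemma constF_tendsto_bloch {d : ℕ} (hd : 1 ≤ d) :
    Tendsto (fun M => constF d M (d / 2)) atTop (𝓝 (blochConst d)) := by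
  have h1 := summable_zeta.hasSum.tendsto_sum_nat
  have h2 := h1.mul_const (1 / (8 * Real.pi ^ (3 / 2 : ℝ) * ((d : ℝ) / 2) ^ (3 / 2 : ℝ)))
  have h3 : (∑' n : ℕ, 1 / (((n : ℝ) + 1) ^ (3 / 2 : ℝ)))
      * (1 / (8 * Real.pi ^ (3 / 2 : ℝ) * ((d : ℝ) / 2) ^ (3 / 2 : ℝ))) = blochConst d := by
    unfold blochConst
    rw [zeta_re]
    ring
  rw [h3] at h2
  refine h2.congr fun M => ?_
  rw [constF_at hd, Finset.sum_mul]

/-- eventually form -/
theorem bloch_eventually {d : ℕ} (hd : 1 ≤ d) {c : ℝ} (hc : c < blochConst d) :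
    ∀ᶠ β : ℝ in atTop, c < β ^ (3 / 2 : ℝ) * ((d : ℝ) / 2 - spontMag d β) := by
  have hd' : (0 : ℝ) < d := by exact_mod_cast hd
  have hd2 : (0 : ℝ) < (d : ℝ) / 2 := by positivity
  -- choose M
  obtain ⟨M, hM⟩ := ((constF_tendsto_bloch hd).eventually (lt_mem_nhds hc)).exists
  -- choose m₀
  have h1 : ∀ᶠ m₀ in 𝓝[<] ((d : ℝ) / 2), c < constF d M m₀ :=
    (tendsto_nhdsWithin_of_tendsto_nhds (constF_tendsto hd M)).eventually (lt_mem_nhds hM)
  have h2 : ∀ᶠ m₀ in 𝓝[<] ((d : ℝ) / 2), m₀ ∈ Set.Ioo 0 ((d : ℝ) / 2) := Ioo_mem_nhdsLT hd2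
  obtain ⟨m₀, hm1, hm2, hm3⟩ := (h1.and h2).exists
  set κ : ℝ := (d : ℝ) / 2 * (d - m₀) / m₀ with hκ
  have hκpos : 0 < κ := by
    rw [hκ]
    have : 0 < (d : ℝ) - m₀ := by linarith
    positivity
  -- limit in β
  have hlim : Tendsto (fun β : ℝ => m₀ / (d / 2) * ∑ n ∈ Finset.range M,
      (Real.sqrt β * gaussI ((((n : ℝ) + 1) * κ) * β)) ^ 3) atTop (𝓝 (constF d M m₀)) := by
    unfold constF
    apply Tendsto.const_mul
    apply tendsto_finsetSum
    intro n _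
    apply Tendsto.pow
    exact tendsto_sqrt_gaussI_scaled (by positivity)
  have e1 := hlim.eventually (lt_mem_nhds hm1)
  have e2 : ∀ᶠ β : ℝ in atTop, c < β ^ (3 / 2 : ℝ) * ((d : ℝ) / 2 - m₀) := by
    have : Tendsto (fun β : ℝ => β ^ (3 / 2 : ℝ) * ((d : ℝ) / 2 - m₀)) atTop atTop :=
      (tendsto_rpow_atTop (by norm_num)).atTop_mul_const (by linarith)
    exact this.eventually_gt_atTop c
  filter_upwards [e1, e2, eventually_gt_atTop 0] with β hb1 hb2 hβ
  have hpow : β ^ (3 / 2 : ℝ) = Real.sqrt β ^ 3 := by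
    rw [Real.sqrt_eq_rpow, ← Real.rpow_natCast, ← Real.rpow_mul hβ.le]
    norm_num
  have hpp : 0 < β ^ (3 / 2 : ℝ) := by positivity
  rcases le_or_gt (spontMag d β) m₀ with hcase | hcase
  · refine lt_of_lt_of_le hb2 ?_
    apply mul_le_mul_of_nonneg_left _ hpp.le
    linarith
  · have hb := spontMag_bound d hβ hm2 hcase M
    have e3 : m₀ / (d / 2) * ∑ n ∈ Finset.range M,
        (Real.sqrt β * gaussI ((((n : ℝ) + 1) * κ) * β)) ^ 3
        = β ^ (3 / 2 : ℝ) / (d / 2) * (m₀ * ∑ n ∈ Finset.range M,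
          (gaussI (((n : ℝ) + 1) * (β * κ))) ^ 3) := by
      rw [hpow]
      have : ∀ n ∈ Finset.range M, (Real.sqrt β * gaussI ((((n : ℝ) + 1) * κ) * β)) ^ 3
          = Real.sqrt β ^ 3 * (gaussI (((n : ℝ) + 1) * (β * κ))) ^ 3 := by
        intro n _
        rw [mul_pow]
        congr 3
        ring
      rw [Finset.sum_congr rfl this, ← Finset.mul_sum]
      ring
    rw [e3] at hb1
    refine lt_of_lt_of_le hb1 ?_
    have h5 := mul_le_mul_of_nonneg_left hb (by positivity : 0 ≤ β ^ (3 / 2 : ℝ) / ((d : ℝ) / 2))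
    refine h5.trans (le_of_eq ?_)
    field_simp

end Vale.Agent.P361
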