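import Vale.Agent.P361.Pressure

/-!
# Uniform bounds on the finite-volume pressure
-/

namespace Vale.Agent.P361

open Matrix

section qf
variable {n : Type*} [Fintype n]

/-- quadratic form of the vector `u` -/
noncomputable def qf (u : n → ℂ) (X : Matrix n n ℂ) : ℝ := (star u ⬝ᵥ (X *ᵥ u)).re

lemma qf_add (u : n → ℂ) (X Y : Matrix n n ℂ) : qf u (X + Y) = qf u X + qf u Y := by
  simp [qf, Matrix.add_mulVec, dotProduct_add]

lemma qf_sub (u : n → ℂ) (X Y : Matrix n n ℂ) : qf u (X - Y) = qf u X - qf u Y := by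
  simp [qf, Matrix.sub_mulVec, dotProduct_sub]

lemma qf_neg (u : n → ℂ) (X : Matrix n n ℂ) : qf u (-X) = - qf u X := by
  simp [qf, Matrix.neg_mulVec]

lemma qf_smul (u : n → ℂ) (c : ℝ) (X : Matrix n n ℂ) : qf u ((c : ℂ) • X) = c * qf u X := by
  simp [qf, Matrix.smul_mulVec]

lemma qf_zero (u : n → ℂ) : qf u (0 : Matrix n n ℂ) = 0 := by simp [qf]

lemma qf_sum {ι : Type*} (s : Finset ι) (u : n → ℂ) (f : ι → Matrix n n ℂ) :
    qf u (∑ i ∈ s, f i) = ∑ i ∈ s, qf u (f i) := by
  classical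
  induction s using Finset.induction_on with
  | empty => simp [qf_zero]
  | insert a s ha ih => rw [Finset.sum_insert ha, Finset.sum_insert ha, qf_add, ih]

lemma qf_nonneg (u : n → ℂ) (A : Matrix n n ℂ) : 0 ≤ qf u (Aᴴ * A) := by
  unfold qf
  have h1 : star u ⬝ᵥ ((Aᴴ * A) *ᵥ u) = star (A *ᵥ u) ⬝ᵥ (A *ᵥ u) := by
    rw [← Matrix.mulVec_mulVec, Matrix.star_mulVec, Matrix.dotProduct_mulVec]
  rw [h1]
  unfold dotProduct
  rw [Complex.re_sum]
  refine Finset.sum_nonneg fun i _ => ?_
  rw [Pi.star_apply, Complex.star_def, mul_comm, Complex.mul_conj, Complex.ofReal_re]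
  exact Complex.normSq_nonneg _

end qf

variable {Λ : Type*} [Fintype Λ] [DecidableEq Λ] {d : ℕ}

lemma spinM_conjTranspose (a : Fin 3) : (spinM d a)ᴴ = spinM d a := by
  fin_cases a
  · change (spinM d 0)ᴴ = spinM d 0
    rw [spinM_zero, Matrix.conjTranspose_smul, Matrix.conjTranspose_add,
      Matrix.conjTranspose_conjTranspose, add_comm (raiseM d)ᴴ]
    simp
  · change (spinM d 1)ᴴ = spinM d 1
    rw [spinM_one, Matrix.conjTranspose_smul, Matrix.conjTranspose_sub,
      Matrix.conjTranspose_conjTranspose]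
    have h2 : (starRingEnd ℂ) 2 = 2 := Complex.conj_ofNat 2
    have h3 : star (-Complex.I / 2) = Complex.I / 2 := by
      rw [Complex.star_def, map_div₀, map_neg, Complex.conj_I, neg_neg, h2]
    rw [h3]
    ext i j
    simp only [Matrix.smul_apply, Matrix.sub_apply, smul_eq_mul]
    ring
  · change (spinM d 2)ᴴ = spinM d 2
    rw [spinM_two, Matrix.diagonal_conjTranspose]
    congr 1
    ext i
    simp

lemma casimir_site (x : Λ) : ∑ a : Fin 3, siteOp x (spinM d a) * siteOp x (spinM d a)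
    = (((d : ℝ) / 2 * (d / 2 + 1) : ℝ) : ℂ) • (1 : Matrix (Λ → Fin (d + 1)) _ ℂ) := by
  rw [Fin.sum_univ_three, siteOp_mul_same, siteOp_mul_same, siteOp_mul_same, ← siteOp_add,
    ← siteOp_add, spinM_casimir, siteOp_smul, siteOp_one]
  congr 1
  push_cast; ring

lemma qf_bond_le {x y : Λ} (h : x ≠ y) (u : (Λ → Fin (d + 1)) → ℂ) :
    |qf u (bond d x y)| ≤ ((d : ℝ) / 2 * (d / 2 + 1)) * qf u 1 := by
  have hx := casimir_site (d := d) x
  have hy := casimir_site (d := d) y
  have key : ∀ ε : ℝ, ε ^ 2 = 1 →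
      0 ≤ 2 * (((d : ℝ) / 2 * (d / 2 + 1)) * qf u 1) + 2 * ε * qf u (bond d x y) := by
    intro ε hε
    have h1 : 0 ≤ qf u (∑ a : Fin 3, (siteOp x (spinM d a) + (ε : ℂ) • siteOp y (spinM d a))ᴴ
        * (siteOp x (spinM d a) + (ε : ℂ) • siteOp y (spinM d a))) := by
      rw [qf_sum]
      exact Finset.sum_nonneg fun a _ => qf_nonneg u _
    have h2 : ∑ a : Fin 3, (siteOp x (spinM d a) + (ε : ℂ) • siteOp y (spinM d a))ᴴ
        * (siteOp x (spinM d a) + (ε : ℂ) • siteOp y (spinM d a))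
        = ∑ a : Fin 3, siteOp x (spinM d a) * siteOp x (spinM d a)
          + ∑ a : Fin 3, siteOp y (spinM d a) * siteOp y (spinM d a)
          + ((2 * ε : ℝ) : ℂ) • bond d x y := by
      unfold bond
      rw [← Finset.sum_add_distrib, Finset.smul_sum, ← Finset.sum_add_distrib]
      refine Finset.sum_congr rfl fun a _ => ?_
      rw [Matrix.conjTranspose_add, Matrix.conjTranspose_smul, siteOp_conjTranspose,
        siteOp_conjTranspose, spinM_conjTranspose, Complex.star_def, Complex.conj_ofReal]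
      have hc : siteOp y (spinM d a) * siteOp x (spinM d a)
          = siteOp x (spinM d a) * siteOp y (spinM d a) := siteOp_comm h.symm _ _
      rw [add_mul, mul_add, mul_add, smul_mul_assoc, smul_mul_assoc, mul_smul_comm, mul_smul_comm,
        smul_smul, hc]
      have hee : (ε : ℂ) * (ε : ℂ) = 1 := by
        rw [← Complex.ofReal_mul, ← sq, hε, Complex.ofReal_one]
      rw [hee, one_smul]
      push_cast
      rw [mul_smul, two_smul]
      abel
    rw [h2, hx, hy, qf_add, qf_add, qf_smul, qf_smul] at h1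
    linarith
  have h1 := key 1 (by norm_num)
  have h2 := key (-1) (by norm_num)
  rw [abs_le]
  constructor <;> linarith

variable {adj : Λ → Λ → Prop} [DecidableRel adj]

lemma qf_one_nonneg {n : Type*} [Fintype n] [DecidableEq n] (u : n → ℂ) :
    0 ≤ qf u (1 : Matrix n n ℂ) := by
  have := qf_nonneg u (1 : Matrix n n ℂ)
  simpa using this

/-- energy bound: at most `deg` neighbours per site -/
lemma qf_K0_le (hadj : ∀ x y, adj x y → x ≠ y) {β : ℝ} (hβ : 0 < β) (D : ℝ)
    (hD : ∀ x, (∑ y, if adj x y then (1 : ℝ) else 0) ≤ D) (u : (Λ → Fin (d + 1)) → ℂ) :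
    |qf u (gibbsK d adj β 0)| ≤
      (β / 2 * D * ((d : ℝ) / 2 * (d / 2 + 1))) * Fintype.card Λ * qf u 1 := by
  rw [gibbsK_eq]
  simp only [mul_zero, Complex.ofReal_zero, zero_smul, add_zero]
  rw [qf_smul, abs_mul, abs_of_pos (by linarith : 0 < β / 2), qf_sum]
  set C := ((d : ℝ) / 2 * (d / 2 + 1)) * qf u (1 : Matrix (Λ → Fin (d + 1)) _ ℂ) with hC
  have hCnn : 0 ≤ C := by
    rw [hC]; exact mul_nonneg (by positivity) (qf_one_nonneg u)
  have h1 : |∑ x, qf u (∑ y, if adj x y then bond d x y else 0)| ≤ ∑ _x : Λ, D * C := by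
    refine (Finset.abs_sum_le_sum_abs _ _).trans (Finset.sum_le_sum fun x _ => ?_)
    rw [qf_sum]
    refine (Finset.abs_sum_le_sum_abs _ _).trans ?_
    calc ∑ y, |qf u (if adj x y then bond d x y else 0)|
        ≤ ∑ y, (if adj x y then (1 : ℝ) else 0) * C := by
          refine Finset.sum_le_sum fun y _ => ?_
          split_ifs with hxy
          · rw [one_mul]; exact qf_bond_le (hadj x y hxy) u
          · rw [qf_zero]; simp
      _ = (∑ y, if adj x y then (1 : ℝ) else 0) * C := by rw [Finset.sum_mul]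
      _ ≤ D * C := mul_le_mul_of_nonneg_right (hD x) hCnn
  rw [Finset.sum_const, Finset.card_univ, nsmul_eq_mul] at h1
  calc β / 2 * |∑ x, qf u (∑ y, if adj x y then bond d x y else 0)|
      ≤ β / 2 * (Fintype.card Λ * (D * C)) := mul_le_mul_of_nonneg_left h1 (by linarith)
    _ = _ := by rw [hC]; ring

/-- two-sided bounds of the trace of the exponential from quadratic form bounds -/
lemma trace_exp_bounds {n : Type*} [Fintype n] [DecidableEq n] {K : Matrix n n ℂ}
    (hK : K.IsHermitian) (B : ℝ) (hB : ∀ u : n → ℂ, |qf u K| ≤ B * qf u 1) :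
    Fintype.card n * Real.exp (-B) ≤ gE K 1 ∧ gE K 1 ≤ Fintype.card n * Real.exp B := by
  obtain ⟨U, e, hU1, hU2, hKd, hexp⟩ := exists_diag hK
  have hz : gE K 1 = ∑ i, Real.exp (e i) := by
    unfold gE
    rw [Matrix.mul_one, hexp, Matrix.mul_assoc, Matrix.trace_mul_comm, Matrix.mul_assoc, hU2,
      Matrix.mul_one, Matrix.trace_diagonal, Complex.re_sum]
    simp only [Complex.ofReal_re]
  have conjK : Uᴴ * K * U = diagonal (fun i => ((e i : ℝ) : ℂ)) := by
    rw [hKd]
    calc Uᴴ * (U * diagonal (fun i => (e i : ℂ)) * Uᴴ) * U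
        = (Uᴴ * U) * diagonal (fun i => (e i : ℂ)) * (Uᴴ * U) := by simp [Matrix.mul_assoc]
      _ = _ := by rw [hU2]; simp
  have hq : ∀ (X : Matrix n n ℂ) (i : n), qf (fun j => U j i) X = ((Uᴴ * X * U) i i).re := by
    intro X i
    unfold qf
    congr 1
    rw [Matrix.mul_assoc, Matrix.mul_apply]
    unfold dotProduct
    refine Finset.sum_congr rfl fun j _ => ?_
    rw [Pi.star_apply, Matrix.conjTranspose_apply]
    rfl
  have he : ∀ i, |e i| ≤ B := by
    intro i
    have h1 := hB (fun j => U j i)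
    rw [hq, hq, conjK, Matrix.mul_one, hU2, Matrix.diagonal_apply_eq, Matrix.one_apply_eq,
      Complex.ofReal_re, Complex.one_re, mul_one] at h1
    exact h1
  rw [hz]
  constructor
  · have : (Fintype.card n : ℝ) * Real.exp (-B) = ∑ _i : n, Real.exp (-B) := by
      rw [Finset.sum_const, Finset.card_univ, nsmul_eq_mul]
    rw [this]
    exact Finset.sum_le_sum fun i _ => Real.exp_le_exp.mpr (by linarith [(abs_le.mp (he i)).1])
  · have : (Fintype.card n : ℝ) * Real.exp B = ∑ _i : n, Real.exp B := by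
      rw [Finset.sum_const, Finset.card_univ, nsmul_eq_mul]
    rw [this]
    exact Finset.sum_le_sum fun i _ => Real.exp_le_exp.mpr (abs_le.mp (he i)).2

lemma log_Zf0_bounds [Nonempty Λ] (hadj : ∀ x y, adj x y → x ≠ y) {β : ℝ} (hβ : 0 < β) (D : ℝ)
    (hD : ∀ x, (∑ y, if adj x y then (1 : ℝ) else 0) ≤ D) :
    |Real.log (Zf d adj β 0)| ≤ Fintype.card Λ *
      (Real.log (d + 1) + β / 2 * D * ((d : ℝ) / 2 * (d / 2 + 1))) := by
  set B : ℝ := (β / 2 * D * ((d : ℝ) / 2 * (d / 2 + 1))) * Fintype.card Λ with hBdef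
  have h1 := trace_exp_bounds (gibbsK_hermitian (d := d) hadj β 0) B
    (fun u => qf_K0_le hadj hβ D hD u)
  have hcard : (Fintype.card (Λ → Fin (d + 1)) : ℝ) = ((d : ℝ) + 1) ^ (Fintype.card Λ) := by
    rw [Fintype.card_fun, Fintype.card_fin]; push_cast; ring
  have hcpos : (0 : ℝ) < Fintype.card (Λ → Fin (d + 1)) := by
    rw [hcard]; positivity
  have hZ := Zf_pos (d := d) hadj β 0
  have hl1 : Real.log (Fintype.card (Λ → Fin (d + 1)) : ℝ) = Fintype.card Λ * Real.log (d + 1) := by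
    rw [hcard, Real.log_pow]
  have hlognn : 0 ≤ Real.log ((d : ℝ) + 1) := Real.log_nonneg (by
    have : (0 : ℝ) ≤ d := by positivity
    linarith)
  have hcnn : (0 : ℝ) ≤ Fintype.card Λ := by positivity
  have hup : Real.log (Zf d adj β 0) ≤ Fintype.card Λ * Real.log (d + 1) + B := by
    have := Real.log_le_log hZ h1.2
    rwa [Real.log_mul hcpos.ne' (Real.exp_pos _).ne', Real.log_exp, hl1] at this
  have hlo : Fintype.card Λ * Real.log (d + 1) - B ≤ Real.log (Zf d adj β 0) := by
    have := Real.log_le_log (by positivity) h1.1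
    rw [Real.log_mul hcpos.ne' (Real.exp_pos _).ne', Real.log_exp, hl1] at this
    unfold Zf
    linarith
  have hprod : 0 ≤ (Fintype.card Λ : ℝ) * Real.log (d + 1) := mul_nonneg hcnn hlognn
  rw [mul_add, abs_le, hBdef] at *
  constructor <;> linarith

end Vale.Agent.P361
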