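import Vale.Agent.P361.FiniteVol2

/-!
# The box `{-N,…,N}³` and its characters
-/

namespace Vale.Agent.P361

open Matrix

/-- Nearest-neighbour relation `|x - y|₁ = 1` on the box. -/
def nn (N : ℕ) (x y : box N) : Prop := ∑ i, |(x : Fin 3 → ℤ) i - (y : Fin 3 → ℤ) i| = 1

instance (N : ℕ) : DecidableRel (nn N) := fun x y => by unfold nn; infer_instance

lemma mem_box {N : ℕ} {x : Fin 3 → ℤ} : x ∈ box N ↔ ∀ i, -(N : ℤ) ≤ x i ∧ x i ≤ N := by
  simp [box, Fintype.mem_piFinset, Finset.mem_Icc]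

lemma card_box (N : ℕ) : Fintype.card (box N) = (2 * N + 1) ^ 3 := by
  rw [Fintype.card_coe, box, Fintype.card_piFinset]
  simp only [Int.card_Icc, Finset.prod_const, Finset.card_univ, Fintype.card_fin]
  congr 1
  omega

instance (N : ℕ) : Nonempty (box N) := ⟨⟨0, mem_box.mpr fun i => by simp⟩⟩

lemma nn_ne {N : ℕ} (x y : box N) (h : nn N x y) : x ≠ y := by
  rintro rfl
  simp [nn] at h

lemma nn_symm {N : ℕ} (x y : box N) (h : nn N x y) : nn N y x := by
  unfold nn at *
  rw [← h]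
  exact Finset.sum_congr rfl fun i _ => abs_sub_comm _ _

/-- the phase `2π k·x / L` -/
noncomputable def phase (N : ℕ) (k x : Fin 3 → ℤ) : ℝ :=
  2 * Real.pi * (∑ i, (k i : ℝ) * (x i : ℝ)) / (2 * N + 1)

/-- the character `e^{i k x}` -/
noncomputable def chr (N : ℕ) (k x : Fin 3 → ℤ) : ℂ := Complex.exp ((phase N k x : ℝ) * Complex.I)

lemma phase_sub (N : ℕ) (k x y : Fin 3 → ℤ) : phase N k (x - y) = phase N k x - phase N k y := by
  unfold phase
  simp only [Pi.sub_apply, Int.cast_sub, mul_sub, Finset.sum_sub_distrib]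
  ring

lemma chr_star (N : ℕ) (k x : Fin 3 → ℤ) : star (chr N k x) = Complex.exp (-(phase N k x : ℝ) * Complex.I) := by
  unfold chr
  rw [Complex.star_def, ← Complex.exp_conj]
  simp

lemma chr_mul_star (N : ℕ) (k x : Fin 3 → ℤ) : chr N k x * star (chr N k x) = 1 := by
  rw [chr_star, chr, ← Complex.exp_add]
  simp

lemma star_chr_mul (N : ℕ) (k x y : Fin 3 → ℤ) :
    star (chr N k x) * chr N k y = chr N k (y - x) := by
  rw [chr_star, chr, chr, ← Complex.exp_add, phase_sub]
  congr 1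
  push_cast
  ring

lemma chr_eq_prod (N : ℕ) (k x : Fin 3 → ℤ) : chr N k x
    = ∏ i, (Complex.exp (2 * Real.pi * Complex.I * (x i : ℤ) / (2 * N + 1))) ^ (k i) := by
  unfold chr phase
  have : ∀ i, (Complex.exp (2 * Real.pi * Complex.I * (x i : ℤ) / (2 * N + 1))) ^ (k i)
      = Complex.exp ((k i : ℂ) * (2 * Real.pi * Complex.I * (x i : ℤ) / (2 * N + 1))) := by
    intro i
    rw [Complex.exp_int_mul]
  rw [Finset.prod_congr rfl fun i _ => this i, ← Complex.exp_sum]
  congr 1
  push_cast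
  rw [Finset.mul_sum, Finset.sum_div, Finset.sum_mul]
  refine Finset.sum_congr rfl fun i _ => ?_
  ring

lemma zpow_sum_mul (ω : ℂ) (hω : ω ≠ 0) (N : ℕ) :
    (ω - 1) * ∑ k ∈ Finset.Icc (-(N : ℤ)) (N : ℤ), ω ^ k = ω ^ ((N : ℤ) + 1) - ω ^ (-(N : ℤ)) := by
  induction N with
  | zero => simp
  | succ N ih =>
    have hset : Finset.Icc (-((N + 1 : ℕ) : ℤ)) ((N + 1 : ℕ) : ℤ)
        = insert (-((N + 1 : ℕ) : ℤ)) (insert ((N + 1 : ℕ) : ℤ)
          (Finset.Icc (-(N : ℤ)) (N : ℤ))) := by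
      ext a
      simp only [Finset.mem_Icc, Finset.mem_insert]
      push_cast
      omega
    rw [hset, Finset.sum_insert, Finset.sum_insert, mul_add, mul_add, ih]
    · push_cast
      have e1 : ω ^ ((N : ℤ) + 1 + 1) = ω ^ ((N : ℤ) + 1) * ω := by
        rw [zpow_add₀ hω ((N : ℤ) + 1) 1, zpow_one]
      have e2 : ω ^ (-(N : ℤ)) = ω ^ (-((N : ℤ) + 1)) * ω := by
        rw [← zpow_add_one₀ hω]; congr 1; ring
      rw [e1, e2]
      ring
    · simp only [Finset.mem_Icc]
      push_cast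
      omega
    · simp only [Finset.mem_insert, Finset.mem_Icc]
      push_cast
      omega

lemma one_dim_orth (N : ℕ) (r : ℤ) (hr : |r| ≤ 2 * N) :
    ∑ k ∈ Finset.Icc (-(N : ℤ)) (N : ℤ),
      (Complex.exp (2 * Real.pi * Complex.I * (r : ℤ) / (2 * N + 1))) ^ k
      = if r = 0 then ((2 * N + 1 : ℕ) : ℂ) else 0 := by
  split_ifs with h0
  · subst h0
    simp only [Int.cast_zero, mul_zero, zero_div, Complex.exp_zero, _root_.one_zpow, Finset.sum_const,
      Int.card_Icc, nsmul_eq_mul, mul_one]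
    congr 1
    omega
  · set ω := Complex.exp (2 * Real.pi * Complex.I * (r : ℤ) / (2 * N + 1)) with hω
    have hne : ω ≠ 0 := Complex.exp_ne_zero _
    have hL : ((2 * N + 1 : ℕ) : ℂ) ≠ 0 := by exact_mod_cast (by omega : 2 * N + 1 ≠ 0)
    have hL' : (2 * (N : ℂ) + 1) ≠ 0 := by exact_mod_cast hL
    have hpow : ω ^ ((2 * (N : ℤ) + 1)) = 1 := by
      rw [hω, ← Complex.exp_int_mul]
      rw [Complex.exp_eq_one_iff]
      refine ⟨r, ?_⟩
      push_cast
      field_simp
    have hne1 : ω ≠ 1 := by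
      rw [hω]
      intro h
      rw [Complex.exp_eq_one_iff] at h
      obtain ⟨q, hq⟩ := h
      have h2 : (r : ℂ) = q * (2 * N + 1) := by
        have hpi : (2 * (Real.pi : ℂ) * Complex.I) ≠ 0 := by
          simp [Real.pi_ne_zero, Complex.I_ne_zero]
        rw [div_eq_iff hL'] at hq
        have : (2 * (Real.pi : ℂ) * Complex.I) * r = (2 * (Real.pi : ℂ) * Complex.I) * (q * (2 * N + 1)) := by
          linear_combination hq
        exact mul_left_cancel₀ hpi this
      have h3 : r = q * (2 * N + 1) := by exact_mod_cast h2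
      rcases eq_or_ne q 0 with hq0 | hq0
      · rw [hq0] at h3; apply h0; simpa using h3
      · have : (1 : ℤ) ≤ |q| := Int.one_le_abs hq0
        have h4 : |r| = |q| * (2 * N + 1) := by
          rw [h3, abs_mul, abs_of_pos (by positivity : (0 : ℤ) < 2 * N + 1)]
        nlinarith
    have hmul := zpow_sum_mul ω hne N
    have hzero : ω ^ ((N : ℤ) + 1) - ω ^ (-(N : ℤ)) = 0 := by
      have : ω ^ ((N : ℤ) + 1) = ω ^ (-(N : ℤ)) * ω ^ ((2 * (N : ℤ) + 1)) := by
        rw [← zpow_add₀ hne]; congr 1; ring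
      rw [this, hpow]; ring
    rw [hzero] at hmul
    rcases mul_eq_zero.mp hmul with h | h
    · exact absurd (sub_eq_zero.mp h) hne1
    · exact h

lemma box_sum_prod {N : ℕ} (f : Fin 3 → ℤ → ℂ) :
    ∑ k : box N, ∏ i, f i ((k : Fin 3 → ℤ) i) = ∏ i, ∑ j ∈ Finset.Icc (-(N : ℤ)) (N : ℤ), f i j := by
  rw [Finset.prod_univ_sum]
  rw [Finset.sum_coe_sort (box N) (fun k => ∏ i, f i (k i))]
  rfl

lemma box_sum_prod_real {N : ℕ} (f : Fin 3 → ℤ → ℝ) :
    ∑ k : box N, ∏ i, f i ((k : Fin 3 → ℤ) i) = ∏ i, ∑ j ∈ Finset.Icc (-(N : ℤ)) (N : ℤ), f i j := by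
  rw [Finset.prod_univ_sum]
  rw [Finset.sum_coe_sort (box N) (fun k => ∏ i, f i (k i))]
  rfl

lemma chr_orth (N : ℕ) (x y : box N) :
    ∑ k : box N, star (chr N k x) * chr N k y
      = if x = y then (Fintype.card (box N) : ℂ) else 0 := by
  have h1 : ∀ k : box N, star (chr N k x) * chr N k y
      = ∏ i, (Complex.exp (2 * Real.pi * Complex.I * (((y : Fin 3 → ℤ) - x) i : ℤ) / (2 * N + 1)))
        ^ ((k : Fin 3 → ℤ) i) := by
    intro k
    rw [star_chr_mul, chr_eq_prod]
  rw [Finset.sum_congr rfl fun k _ => h1 k]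
  rw [box_sum_prod (fun i j => (Complex.exp (2 * Real.pi * Complex.I *
    (((y : Fin 3 → ℤ) - x) i : ℤ) / (2 * N + 1))) ^ j)]
  have hr : ∀ i, |((y : Fin 3 → ℤ) - x) i| ≤ 2 * N := by
    intro i
    have hx := mem_box.mp x.2 i
    have hy := mem_box.mp y.2 i
    rw [Pi.sub_apply, abs_le]
    constructor <;> linarith [hx.1, hx.2, hy.1, hy.2]
  rw [Finset.prod_congr rfl fun i _ => one_dim_orth N (((y : Fin 3 → ℤ) - x) i) (hr i)]
  split_ifs with hxy
  · subst hxy
    rw [card_box]
    simp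
  · have : ∃ i, ((y : Fin 3 → ℤ) - x) i ≠ 0 := by
      by_contra hcon
      push Not at hcon
      apply hxy
      apply Subtype.ext
      ext i
      have := hcon i
      rw [Pi.sub_apply] at this
      omega
    obtain ⟨i, hi⟩ := this
    exact Finset.prod_eq_zero (Finset.mem_univ i) (if_neg hi)

/-- `|1 - e^{iθ}|² ≤ θ²` -/
lemma normSq_one_sub_exp_le (θ : ℝ) :
    Complex.normSq (1 - Complex.exp ((θ : ℝ) * Complex.I)) ≤ θ ^ 2 := by
  rw [Complex.normSq_apply]
  simp only [Complex.sub_re, Complex.one_re, Complex.sub_im, Complex.one_im]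
  rw [Complex.exp_ofReal_mul_I_re, Complex.exp_ofReal_mul_I_im]
  have h1 := Real.one_sub_sq_div_two_le_cos (x := θ)
  have h2 := Real.sin_sq_add_cos_sq θ
  nlinarith

lemma normSq_chr_sub (N : ℕ) (k x y : Fin 3 → ℤ) :
    Complex.normSq (chr N k x - chr N k y) ≤ (phase N k (y - x)) ^ 2 := by
  have h1 : chr N k x - chr N k y = chr N k x * (1 - chr N k (y - x)) := by
    have h2 : chr N k x * chr N k (y - x) = chr N k y := by
      rw [← star_chr_mul, ← mul_assoc, chr_mul_star, one_mul]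
    rw [mul_sub, h2, mul_one]
  have h3 : Complex.normSq (chr N k x) = 1 := by
    have := chr_mul_star N k x
    rw [Complex.star_def, Complex.mul_conj] at this
    exact_mod_cast this
  rw [h1, Complex.normSq_mul, h3, one_mul]
  exact normSq_one_sub_exp_le _

/-- `Θ_k = |p|²` with `p = 2πk/L` -/
noncomputable def thetaK (N : ℕ) (k : Fin 3 → ℤ) : ℝ := ∑ i, (2 * Real.pi * (k i : ℝ) / (2 * N + 1)) ^ 2

lemma phase_sq_le_of_l1 (N : ℕ) (k r : Fin 3 → ℤ) (hr : ∑ i, |r i| = 1) :
    (phase N k r) ^ 2 ≤ ∑ i, (2 * Real.pi * (k i : ℝ) / (2 * N + 1)) ^ 2 * ((|r i| : ℤ) : ℝ) := by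
  -- exactly one coordinate is nonzero
  have hex : ∃ j, |r j| = 1 ∧ ∀ i, i ≠ j → r i = 0 := by
    have hne : ∃ j, r j ≠ 0 := by
      by_contra hcon
      push Not at hcon
      simp [hcon] at hr
    obtain ⟨j, hj⟩ := hne
    have h1 : (1 : ℤ) ≤ |r j| := Int.one_le_abs hj
    have h2 : |r j| + ∑ i ∈ Finset.univ.erase j, |r i| = 1 := by
      rw [Finset.add_sum_erase Finset.univ (fun i => |r i|) (Finset.mem_univ j)]; exact hr
    have h3 : 0 ≤ ∑ i ∈ Finset.univ.erase j, |r i| := Finset.sum_nonneg fun i _ => abs_nonneg _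
    have h4 : ∑ i ∈ Finset.univ.erase j, |r i| = 0 := by linarith
    refine ⟨j, by linarith, ?_⟩
    intro i hi
    have := (Finset.sum_eq_zero_iff_of_nonneg (fun i _ => abs_nonneg (r i))).mp h4 i
      (Finset.mem_erase.mpr ⟨hi, Finset.mem_univ i⟩)
    exact abs_eq_zero.mp this
  obtain ⟨j, hj, hother⟩ := hex
  have h1 : phase N k r = 2 * Real.pi * (k j : ℝ) / (2 * N + 1) * (r j : ℝ) := by
    unfold phase
    rw [Finset.sum_eq_single j]
    · ring
    · intro i _ hi
      rw [hother i hi]; simp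
    · simp
  have h2 : ((r j : ℤ) : ℝ) ^ 2 = 1 := by
    have : (|r j|) ^ 2 = 1 := by rw [hj]; norm_num
    rw [sq_abs] at this
    exact_mod_cast this
  rw [h1, mul_pow, h2, mul_one]
  calc (2 * Real.pi * (k j : ℝ) / (2 * N + 1)) ^ 2
      = (2 * Real.pi * (k j : ℝ) / (2 * N + 1)) ^ 2 * ((|r j| : ℤ) : ℝ) := by rw [hj]; simp
    _ ≤ _ := Finset.single_le_sum
        (f := fun i => (2 * Real.pi * (k i : ℝ) / (2 * N + 1)) ^ 2 * ((|r i| : ℤ) : ℝ))
        (fun i _ => mul_nonneg (sq_nonneg _) (by exact_mod_cast abs_nonneg _)) (Finset.mem_univ j)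

lemma nbr_count (N : ℕ) (x : box N) (j : Fin 3) :
    (∑ y : box N, if nn N x y then ((|(y : Fin 3 → ℤ) j - (x : Fin 3 → ℤ) j| : ℤ) : ℝ) else 0) ≤ 2 := by
  have h1 : ∀ y : box N, (if nn N x y then ((|(y : Fin 3 → ℤ) j - (x : Fin 3 → ℤ) j| : ℤ) : ℝ) else 0)
      ≤ if (y : Fin 3 → ℤ) ∈ ({Function.update (x : Fin 3 → ℤ) j ((x : Fin 3 → ℤ) j + 1),
        Function.update (x : Fin 3 → ℤ) j ((x : Fin 3 → ℤ) j - 1)} : Finset (Fin 3 → ℤ))
        then (1 : ℝ) else 0 := by
    intro y
    by_cases hy : nn N x y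
    · rw [if_pos hy]
      set r : Fin 3 → ℤ := fun i => (y : Fin 3 → ℤ) i - (x : Fin 3 → ℤ) i with hr
      have hsum : ∑ i, |r i| = 1 := by
        have := nn_symm x y hy
        exact this
      by_cases hrj : r j = 0
      · have : |(y : Fin 3 → ℤ) j - (x : Fin 3 → ℤ) j| = 0 := by
          rw [abs_eq_zero]; exact hrj
        rw [this]
        split_ifs <;> simp
      · have h1 : (1 : ℤ) ≤ |r j| := Int.one_le_abs hrj
        have h2 : |r j| + ∑ i ∈ Finset.univ.erase j, |r i| = 1 := by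
          rw [Finset.add_sum_erase Finset.univ (fun i => |r i|) (Finset.mem_univ j)]; exact hsum
        have h3 : 0 ≤ ∑ i ∈ Finset.univ.erase j, |r i| := Finset.sum_nonneg fun i _ => abs_nonneg _
        have h4 : ∑ i ∈ Finset.univ.erase j, |r i| = 0 := by linarith
        have h5 : |r j| = 1 := by linarith
        have hother : ∀ i, i ≠ j → (y : Fin 3 → ℤ) i = (x : Fin 3 → ℤ) i := by
          intro i hi
          have := (Finset.sum_eq_zero_iff_of_nonneg (fun i _ => abs_nonneg (r i))).mp h4 i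
            (Finset.mem_erase.mpr ⟨hi, Finset.mem_univ i⟩)
          have := abs_eq_zero.mp this
          simp only [hr] at this
          omega
        rw [if_pos]
        · change ((|r j| : ℤ) : ℝ) ≤ 1
          rw [h5]; simp
        · rw [Finset.mem_insert, Finset.mem_singleton]
          rcases (abs_eq (by norm_num : (0 : ℤ) ≤ 1)).mp h5 with h6 | h6
          · left
            ext i
            by_cases hi : i = j
            · subst hi
              rw [Function.update_self]
              simp only [hr] at h6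
              omega
            · rw [Function.update_of_ne hi]; exact hother i hi
          · right
            ext i
            by_cases hi : i = j
            · subst hi
              rw [Function.update_self]
              simp only [hr] at h6
              omega
            · rw [Function.update_of_ne hi]; exact hother i hi
    · rw [if_neg hy]
      split_ifs <;> simp
  refine (Finset.sum_le_sum fun y _ => h1 y).trans ?_
  rw [← Finset.sum_filter, Finset.sum_const, nsmul_eq_mul, mul_one]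
  set T : Finset (Fin 3 → ℤ) := {Function.update (x : Fin 3 → ℤ) j ((x : Fin 3 → ℤ) j + 1),
        Function.update (x : Fin 3 → ℤ) j ((x : Fin 3 → ℤ) j - 1)}
  have h2 : (Finset.univ.filter fun y : box N => (y : Fin 3 → ℤ) ∈ T).card ≤ T.card := by
    apply Finset.card_le_card_of_injOn (fun y : box N => (y : Fin 3 → ℤ))
    · intro y hy
      have := (Finset.mem_filter.mp hy).2
      exact this
    · intro a _ b _ hab
      exact Subtype.ext hab
  have h3 : T.card ≤ 2 := Finset.card_le_two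
  exact_mod_cast h2.trans h3

lemma theta_bound (N : ℕ) (k x : box N) :
    (∑ y : box N, if nn N x y then Complex.normSq (chr N k x - chr N k y) else 0)
      ≤ 2 * thetaK N k := by
  have h1 : ∀ y : box N, (if nn N x y then Complex.normSq (chr N k x - chr N k y) else 0)
      ≤ ∑ j, (2 * Real.pi * ((k : Fin 3 → ℤ) j : ℝ) / (2 * N + 1)) ^ 2 *
        (if nn N x y then ((|(y : Fin 3 → ℤ) j - (x : Fin 3 → ℤ) j| : ℤ) : ℝ) else 0) := by
    intro y
    by_cases hy : nn N x y
    · simp only [if_pos hy]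
      refine (normSq_chr_sub N k x y).trans ?_
      exact phase_sq_le_of_l1 N k ((y : Fin 3 → ℤ) - x) (nn_symm x y hy)
    · simp [if_neg hy]
  refine (Finset.sum_le_sum fun y _ => h1 y).trans ?_
  rw [Finset.sum_comm]
  unfold thetaK
  rw [Finset.mul_sum]
  refine Finset.sum_le_sum fun j _ => ?_
  rw [← Finset.mul_sum]
  have := nbr_count N x j
  calc _ ≤ (2 * Real.pi * ((k : Fin 3 → ℤ) j : ℝ) / (2 * N + 1)) ^ 2 * 2 :=
        mul_le_mul_of_nonneg_left this (sq_nonneg _)
    _ = _ := by ring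

end Vale.Agent.P361
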