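import Vale.Agent.P361.Spin

/-!
# Commutators with the exchange interaction
-/

namespace Vale.Agent.P361

open Matrix

section ring
variable {R : Type*} [Ring R] [Algebra ℂ R]

lemma comm_left {px mx zx py my zy : R}
    (hzy : zy * px = px * zy) (hmy : my * px = px * my) (hpy : py * px = px * py)
    (hz : zx * px - px * zx = px) (hpm : px * mx - mx * px = (2 : ℂ) • zx) :
    (zx * zy + (1 / 2 : ℂ) • (px * my + mx * py)) * px
      - px * (zx * zy + (1 / 2 : ℂ) • (px * my + mx * py)) = px * zy - zx * py := by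
  have h1 : (zx * zy + (1 / 2 : ℂ) • (px * my + mx * py)) * px
      - px * (zx * zy + (1 / 2 : ℂ) • (px * my + mx * py))
      = (zx * px - px * zx) * zy - (1 / 2 : ℂ) • ((px * mx - mx * px) * py) := by
    have e1 : zx * zy * px = zx * px * zy := by rw [mul_assoc, hzy, mul_assoc]
    have e2 : px * my * px = px * (px * my) := by rw [mul_assoc, hmy]
    have e3 : mx * py * px = mx * px * py := by rw [mul_assoc, hpy, mul_assoc]
    rw [add_mul, smul_mul_assoc, add_mul, e1, e2, e3, mul_add, mul_smul_comm, mul_add, sub_mul,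
      sub_mul, smul_sub, smul_add, smul_add]
    rw [← mul_assoc px zx zy, ← mul_assoc px mx py]
    abel
  rw [h1, hz, hpm, smul_mul_assoc, smul_smul]
  norm_num

lemma comm_right {px mx zx py my zy : R}
    (hzx : zx * py = py * zx) (hmx : mx * py = py * mx) (hpx : px * py = py * px)
    (hz : zy * py - py * zy = py) (hpm : py * my - my * py = (2 : ℂ) • zy) :
    (zx * zy + (1 / 2 : ℂ) • (px * my + mx * py)) * py
      - py * (zx * zy + (1 / 2 : ℂ) • (px * my + mx * py)) = zx * py - px * zy := by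
  have h1 : (zx * zy + (1 / 2 : ℂ) • (px * my + mx * py)) * py
      - py * (zx * zy + (1 / 2 : ℂ) • (px * my + mx * py))
      = zx * (zy * py - py * zy) - (1 / 2 : ℂ) • (px * (py * my - my * py)) := by
    have e1 : py * (zx * zy) = zx * (py * zy) := by rw [← mul_assoc, ← hzx, mul_assoc]
    have e2 : py * (px * my) = px * (py * my) := by rw [← mul_assoc, ← hpx, mul_assoc]
    have e3 : py * (mx * py) = mx * py * py := by rw [← mul_assoc, ← hmx]
    rw [add_mul, smul_mul_assoc, add_mul, mul_add, mul_smul_comm, mul_add, e1, e2, e3, mul_sub,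
      mul_sub, smul_sub, smul_add, smul_add]
    rw [mul_assoc zx zy py, mul_assoc px my py]
    abel
  rw [h1, hz, hpm, mul_smul_comm, smul_smul]
  norm_num

lemma comm_W_left {px mx zx py zy : R}
    (hpy : py * mx = mx * py) (hzy : zy * mx = mx * zy)
    (hz : zx * mx - mx * zx = -mx) (hpm : px * mx - mx * px = (2 : ℂ) • zx) :
    (zx * py - px * zy) * mx - mx * (zx * py - px * zy)
      = -(mx * py) - (2 : ℂ) • (zx * zy) := by
  have h1 : (zx * py - px * zy) * mx - mx * (zx * py - px * zy)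
      = (zx * mx - mx * zx) * py - (px * mx - mx * px) * zy := by
    have e1 : zx * py * mx = zx * mx * py := by rw [mul_assoc, hpy, mul_assoc]
    have e2 : px * zy * mx = px * mx * zy := by rw [mul_assoc, hzy, mul_assoc]
    rw [sub_mul, mul_sub, e1, e2, sub_mul, sub_mul, ← mul_assoc mx, ← mul_assoc mx]
    abel
  rw [h1, hz, hpm, smul_mul_assoc, neg_mul]

lemma comm_W_right {px zx py my zy : R}
    (hzx : zx * my = my * zx) (hpx : px * my = my * px)
    (hz : zy * my - my * zy = -my) (hpm : py * my - my * py = (2 : ℂ) • zy) :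
    (zx * py - px * zy) * my - my * (zx * py - px * zy)
      = (2 : ℂ) • (zx * zy) + px * my := by
  have h1 : (zx * py - px * zy) * my - my * (zx * py - px * zy)
      = zx * (py * my - my * py) - px * (zy * my - my * zy) := by
    have e1 : my * (zx * py) = zx * (my * py) := by rw [← mul_assoc, ← hzx, mul_assoc]
    have e2 : my * (px * zy) = px * (my * zy) := by rw [← mul_assoc, ← hpx, mul_assoc]
    rw [sub_mul, mul_sub, e1, e2, mul_sub, mul_sub, mul_assoc zx, mul_assoc px]
    abel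
  rw [h1, hz, hpm, mul_smul_comm, mul_neg, sub_neg_eq_add]

end ring

variable {Λ : Type*} [Fintype Λ] [DecidableEq Λ] (d : ℕ)

/-- `S⁺_x` -/
noncomputable def pS (x : Λ) : Matrix (Λ → Fin (d + 1)) (Λ → Fin (d + 1)) ℂ :=
  siteOp x (raiseM d)

/-- `S⁻_x` -/
noncomputable def mS (x : Λ) : Matrix (Λ → Fin (d + 1)) (Λ → Fin (d + 1)) ℂ :=
  siteOp x (raiseM d)ᴴ

/-- `S³_x` -/
noncomputable def zS (x : Λ) : Matrix (Λ → Fin (d + 1)) (Λ → Fin (d + 1)) ℂ :=
  siteOp x (spinM d 2)

/-- `𝐒_x · 𝐒_y` -/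
noncomputable def bond (x y : Λ) : Matrix (Λ → Fin (d + 1)) (Λ → Fin (d + 1)) ℂ :=
  ∑ a : Fin 3, siteOp x (spinM d a) * siteOp y (spinM d a)

variable {d}

lemma bond_eq (x y : Λ) : bond d x y
    = zS d x * zS d y + (1 / 2 : ℂ) • (pS d x * mS d y + mS d x * pS d y) := by
  unfold bond zS pS mS
  rw [Fin.sum_univ_three, spinM_zero, spinM_one]
  simp only [siteOp_smul, siteOp_add, siteOp_sub]
  simp only [Matrix.smul_mul, Matrix.mul_smul, Matrix.mul_add, Matrix.add_mul, Matrix.mul_sub,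
    Matrix.sub_mul, smul_add, smul_sub, smul_smul]
  ext σ τ
  simp only [Matrix.sub_apply, Matrix.add_apply, Matrix.smul_apply, smul_eq_mul]
  linear_combination (1 / 4 * ((siteOp x (raiseM d) * siteOp y (raiseM d)) σ τ
      - (siteOp x (raiseM d) * siteOp y (raiseM d)ᴴ) σ τ
      - (siteOp x (raiseM d)ᴴ * siteOp y (raiseM d)) σ τ
      + (siteOp x (raiseM d)ᴴ * siteOp y (raiseM d)ᴴ) σ τ)) * (Complex.I_sq)

lemma pS_conjTranspose (x : Λ) : (pS d x)ᴴ = mS d x := by
  unfold pS mS; rw [siteOp_conjTranspose]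

lemma mS_conjTranspose (x : Λ) : (mS d x)ᴴ = pS d x := by
  rw [← pS_conjTranspose, Matrix.conjTranspose_conjTranspose]

lemma pS_transpose (x : Λ) : (pS d x)ᵀ = mS d x := by
  unfold pS mS; rw [siteOp_transpose, raiseM_transpose]

lemma mS_transpose (x : Λ) : (mS d x)ᵀ = pS d x := by
  rw [← pS_transpose, Matrix.transpose_transpose]

/-- the eigenvalue of `S³_x` in the configuration `σ` -/
noncomputable def zval (d : ℕ) (x : Λ) (σ : Λ → Fin (d + 1)) : ℝ := (d : ℝ) / 2 - (σ x : ℕ)

lemma zS_eq_diagonal (x : Λ) : zS d x = diagonal (fun σ => ((zval d x σ : ℝ) : ℂ)) := by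
  unfold zS
  rw [spinM_two, siteOp_diagonal]
  congr 1
  ext σ
  simp [zval]

lemma zS_conjTranspose (x : Λ) : (zS d x)ᴴ = zS d x := by
  rw [zS_eq_diagonal, Matrix.diagonal_conjTranspose]
  congr 1
  ext σ
  simp

lemma zS_transpose (x : Λ) : (zS d x)ᵀ = zS d x := by
  rw [zS_eq_diagonal, Matrix.diagonal_transpose]

lemma pm_same (x : Λ) : pS d x * mS d x - mS d x * pS d x = (2 : ℂ) • zS d x := by
  unfold pS mS zS
  rw [siteOp_mul_same, siteOp_mul_same, ← siteOp_sub, comm_raise_lower, siteOp_smul]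

lemma zp_same (x : Λ) : zS d x * pS d x - pS d x * zS d x = pS d x := by
  unfold pS zS
  rw [siteOp_mul_same, siteOp_mul_same, ← siteOp_sub, comm_z_raise]

lemma zm_same (x : Λ) : zS d x * mS d x - mS d x * zS d x = -mS d x := by
  unfold mS zS
  rw [siteOp_mul_same, siteOp_mul_same, ← siteOp_sub, comm_z_lower, siteOp_neg]

/-- the creation-type operator `A = ∑ c_x S⁺_x` -/
noncomputable def modeA (d : ℕ) (c : Λ → ℂ) : Matrix (Λ → Fin (d + 1)) (Λ → Fin (d + 1)) ℂ :=
  ∑ w, c w • pS d w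

lemma modeA_conjTranspose (c : Λ → ℂ) : (modeA d c)ᴴ = ∑ w, star (c w) • mS d w := by
  unfold modeA
  rw [Matrix.conjTranspose_sum]
  refine Finset.sum_congr rfl fun w _ => ?_
  rw [Matrix.conjTranspose_smul, pS_conjTranspose]

lemma bond_comm_p_left {x y : Λ} (h : x ≠ y) : bond d x y * pS d x - pS d x * bond d x y
    = pS d x * zS d y - zS d x * pS d y := by
  rw [bond_eq]
  exact comm_left (siteOp_comm h.symm _ _) (siteOp_comm h.symm _ _) (siteOp_comm h.symm _ _)
    (zp_same x) (pm_same x)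

lemma bond_comm_p_right {x y : Λ} (h : x ≠ y) : bond d x y * pS d y - pS d y * bond d x y
    = zS d x * pS d y - pS d x * zS d y := by
  rw [bond_eq]
  exact comm_right (siteOp_comm h _ _) (siteOp_comm h _ _) (siteOp_comm h _ _)
    (zp_same y) (pm_same y)

lemma siteOp_mul_comm3 {x y w : Λ} (hx : w ≠ x) (hy : w ≠ y)
    (A B C : Matrix (Fin (d + 1)) (Fin (d + 1)) ℂ) :
    siteOp x A * siteOp y B * siteOp w C = siteOp w C * (siteOp x A * siteOp y B) := by
  rw [Matrix.mul_assoc, siteOp_comm hy.symm, ← Matrix.mul_assoc, siteOp_comm hx.symm,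
    Matrix.mul_assoc]

lemma bond_comm_other {x y w : Λ} (hx : w ≠ x) (hy : w ≠ y)
    (C : Matrix (Fin (d + 1)) (Fin (d + 1)) ℂ) :
    bond d x y * siteOp w C - siteOp w C * bond d x y = 0 := by
  unfold bond
  rw [Finset.sum_mul, Finset.mul_sum, ← Finset.sum_sub_distrib]
  refine Finset.sum_eq_zero fun a _ => ?_
  rw [siteOp_mul_comm3 hx hy, sub_self]

/-- `[𝐒_x·𝐒_y, A]` -/
lemma bond_comm_modeA {x y : Λ} (h : x ≠ y) (c : Λ → ℂ) :
    bond d x y * modeA d c - modeA d c * bond d x y
      = (c y - c x) • (zS d x * pS d y - pS d x * zS d y) := by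
  unfold modeA
  rw [Finset.mul_sum, Finset.sum_mul, ← Finset.sum_sub_distrib]
  have h1 : ∀ w ∈ Finset.univ, w ∉ ({x, y} : Finset Λ) →
      bond d x y * (c w • pS d w) - (c w • pS d w) * bond d x y = 0 := by
    intro w _ hw
    simp only [Finset.mem_insert, Finset.mem_singleton, not_or] at hw
    rw [Matrix.mul_smul, Matrix.smul_mul, ← smul_sub]
    unfold pS
    rw [bond_comm_other hw.1 hw.2, smul_zero]
  rw [← Finset.sum_subset (Finset.subset_univ ({x, y} : Finset Λ)) h1, Finset.sum_pair h]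
  rw [Matrix.mul_smul, Matrix.smul_mul, Matrix.mul_smul, Matrix.smul_mul, ← smul_sub, ← smul_sub,
    bond_comm_p_left h, bond_comm_p_right h, sub_smul]
  have : pS d x * zS d y - zS d x * pS d y = -(zS d x * pS d y - pS d x * zS d y) := by abel
  rw [this, smul_neg]
  abel

/-- `[[𝐒_x·𝐒_y, A], A†]` -/
lemma bond_double_comm {x y : Λ} (h : x ≠ y) (c : Λ → ℂ) :
    (bond d x y * modeA d c - modeA d c * bond d x y) * (modeA d c)ᴴ
      - (modeA d c)ᴴ * (bond d x y * modeA d c - modeA d c * bond d x y)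
      = (c y - c x) • (star (c x) • (-(mS d x * pS d y) - (2 : ℂ) • (zS d x * zS d y))
        + star (c y) • ((2 : ℂ) • (zS d x * zS d y) + pS d x * mS d y)) := by
  rw [bond_comm_modeA h, modeA_conjTranspose, Matrix.smul_mul, Matrix.mul_smul, ← smul_sub]
  congr 1
  rw [Finset.mul_sum, Finset.sum_mul, ← Finset.sum_sub_distrib]
  have h1 : ∀ w ∈ Finset.univ, w ∉ ({x, y} : Finset Λ) →
      (zS d x * pS d y - pS d x * zS d y) * (star (c w) • mS d w)
        - (star (c w) • mS d w) * (zS d x * pS d y - pS d x * zS d y) = 0 := by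
    intro w _ hw
    simp only [Finset.mem_insert, Finset.mem_singleton, not_or] at hw
    rw [Matrix.mul_smul, Matrix.smul_mul, ← smul_sub, Matrix.sub_mul, Matrix.mul_sub]
    unfold pS mS zS
    rw [siteOp_mul_comm3 hw.1 hw.2, siteOp_mul_comm3 hw.1 hw.2, sub_self, smul_zero]
  rw [← Finset.sum_subset (Finset.subset_univ ({x, y} : Finset Λ)) h1, Finset.sum_pair h]
  rw [Matrix.mul_smul, Matrix.smul_mul, Matrix.mul_smul, Matrix.smul_mul, ← smul_sub, ← smul_sub]
  have e1 : (zS d x * pS d y - pS d x * zS d y) * mS d x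
      - mS d x * (zS d x * pS d y - pS d x * zS d y)
      = -(mS d x * pS d y) - (2 : ℂ) • (zS d x * zS d y) :=
    comm_W_left (siteOp_comm h.symm _ _) (siteOp_comm h.symm _ _) (zm_same x) (pm_same x)
  have e2 : (zS d x * pS d y - pS d x * zS d y) * mS d y
      - mS d y * (zS d x * pS d y - pS d x * zS d y)
      = (2 : ℂ) • (zS d x * zS d y) + pS d x * mS d y :=
    comm_W_right (siteOp_comm h _ _) (siteOp_comm h _ _) (zm_same y) (pm_same y)
  rw [e1, e2]

/-- `[S³_x, A]` summed: `[M, A] = A` -/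
lemma mag_comm_modeA (c : Λ → ℂ) :
    (∑ x, zS d x) * modeA d c - modeA d c * (∑ x, zS d x) = modeA d c := by
  unfold modeA
  rw [Finset.mul_sum, Finset.sum_mul, ← Finset.sum_sub_distrib]
  refine Finset.sum_congr rfl fun w _ => ?_
  rw [Matrix.mul_smul, Matrix.smul_mul, ← smul_sub, Finset.sum_mul, Finset.mul_sum,
    ← Finset.sum_sub_distrib, Finset.sum_eq_single w]
  · rw [zp_same]
  · intro x _ hx
    unfold zS pS
    rw [siteOp_comm hx, sub_self]
  · simp

/-- `[A, A†]` -/
lemma modeA_comm (c : Λ → ℂ) (hc : ∀ x, c x * star (c x) = 1) :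
    modeA d c * (modeA d c)ᴴ - (modeA d c)ᴴ * modeA d c = (2 : ℂ) • ∑ x, zS d x := by
  rw [modeA_conjTranspose]
  unfold modeA
  rw [Finset.sum_mul, Finset.mul_sum, ← Finset.sum_sub_distrib, Finset.smul_sum]
  refine Finset.sum_congr rfl fun w _ => ?_
  rw [Finset.mul_sum, Finset.sum_mul, ← Finset.sum_sub_distrib, Finset.sum_eq_single w]
  · rw [Matrix.mul_smul, Matrix.smul_mul, Matrix.mul_smul, Matrix.smul_mul, smul_smul, smul_smul,
      mul_comm (star (c w)), hc, one_smul, one_smul, pm_same]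
  · intro x _ hx
    rw [Matrix.mul_smul, Matrix.smul_mul, Matrix.mul_smul, Matrix.smul_mul]
    unfold mS pS
    rw [siteOp_comm hx.symm, smul_smul, smul_smul, mul_comm (c w), sub_self]
  · simp

end Vale.Agent.P361
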