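import Mathlib

/-!
# Definitions for the three-dimensional spin-`S` Heisenberg ferromagnet, `S = d/2`
-/

namespace Vale.Agent.P361

open Matrix

/-- The operator acting as the `(d+1) × (d+1)` matrix `A` on the tensor factor `x` of
`⨂_{x ∈ Λ} ℂ^{d+1}` and as the identity on all other factors, written as a matrix in the
product basis, which is indexed by the configurations `σ : Λ → Fin (d+1)`. -/
def siteOp {Λ : Type*} [Fintype Λ] [DecidableEq Λ] {d : ℕ} (x : Λ)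
    (A : Matrix (Fin (d + 1)) (Fin (d + 1)) ℂ) :
    Matrix (Λ → Fin (d + 1)) (Λ → Fin (d + 1)) ℂ :=
  fun σ τ => if ∀ y, y ≠ x → σ y = τ y then A (σ x) (τ x) else 0

/-- Spin raising matrix `S⁺` of spin `S = d/2` in the basis `|0⟩, …, |d⟩`, where `|j⟩` has
`S³`-eigenvalue `d/2 - j`: `S⁺ |j⟩ = √(j (d + 1 - j)) |j - 1⟩`. -/
noncomputable def raiseM (d : ℕ) : Matrix (Fin (d + 1)) (Fin (d + 1)) ℂ :=
  fun i j => if (i : ℕ) + 1 = (j : ℕ) then ((Real.sqrt ((j : ℝ) * (d + 1 - j)) : ℝ) : ℂ) else 0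

/-- The spin matrices `S¹, S², S³` (indexed by `Fin 3`) of spin `S = d/2`:
`S¹ = (S⁺ + S⁻)/2`, `S² = (S⁺ - S⁻)/(2i)`, `S³ = diag(d/2 - j)`, with `S⁻ = (S⁺)ᴴ`. -/
noncomputable def spinM (d : ℕ) : Fin 3 → Matrix (Fin (d + 1)) (Fin (d + 1)) ℂ :=
  ![(1 / 2 : ℂ) • (raiseM d + (raiseM d)ᴴ),
    (-Complex.I / 2) • (raiseM d - (raiseM d)ᴴ),
    diagonal (fun j => ((d : ℂ) / 2 - (j : ℕ)))]

/-- The box `Λ_N = {-N, …, N}³ ⊆ ℤ³`. -/
noncomputable def box (N : ℕ) : Finset (Fin 3 → ℤ) :=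
  Fintype.piFinset fun _ => Finset.Icc (-(N : ℤ)) (N : ℤ)

/-- The free-boundary Heisenberg Hamiltonian `H_N = -∑_{edges} 𝐒_x·𝐒_y` of spin `d/2` on the box
`Λ_N`; each edge is counted once (`1/2` of the sum over ordered nearest-neighbour pairs). -/
noncomputable def hamiltonian (d N : ℕ) : Matrix (box N → Fin (d + 1)) (box N → Fin (d + 1)) ℂ :=
  -((1 / 2 : ℂ) • ∑ x : box N, ∑ y : box N,
    if ∑ i, |(x : Fin 3 → ℤ) i - (y : Fin 3 → ℤ) i| = 1 then
      ∑ a : Fin 3, siteOp x (spinM d a) * siteOp y (spinM d a) else 0)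

/-- `M_N = ∑_x S³_x`. -/
noncomputable def totalSpin (d N : ℕ) : Matrix (box N → Fin (d + 1)) (box N → Fin (d + 1)) ℂ :=
  ∑ x : box N, siteOp x (spinM d 2)

/-- Finite-volume pressure `(1/(β|Λ_N|)) log Tr e^{-β(H_N - h M_N)}`. -/
noncomputable def finitePressure (d N : ℕ) (β h : ℝ) : ℝ :=
  1 / (β * Fintype.card (box N)) *
    Real.log (Matrix.trace (NormedSpace.exp
      ((-(β : ℂ)) • (hamiltonian d N - (h : ℂ) • totalSpin d N)))).re

/-- The pressure `p_β(h)`: the `limsup` (which is the limit, as the limit exists) of the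
finite-volume pressures. -/
noncomputable def pressure (d : ℕ) (β h : ℝ) : ℝ :=
  Filter.limsup (fun N : ℕ => finitePressure d N β h) Filter.atTop

/-- The spontaneous magnetisation `m_S(β) = ∂_h^+ p_β(0)`. -/
noncomputable def spontMag (d : ℕ) (β : ℝ) : ℝ := derivWithin (pressure d β) (Set.Ioi 0) 0

end Vale.Agent.P361
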