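import Vale.Agent.P361.Comm

/-!
# The finite-volume magnetisation inequality
-/

namespace Vale.Agent.P361

open Matrix

section cE
variable {n : Type*} [Fintype n] [DecidableEq n]

/-- complex Gibbs functional -/
noncomputable def cE (K A : Matrix n n ℂ) : ℂ := Matrix.trace (NormedSpace.exp K * A)

lemma gE_eq_re (K A : Matrix n n ℂ) : gE K A = (cE K A).re := rfl

lemma cE_add (K A B : Matrix n n ℂ) : cE K (A + B) = cE K A + cE K B := by
  simp [cE, Matrix.mul_add]

lemma cE_sub (K A B : Matrix n n ℂ) : cE K (A - B) = cE K A - cE K B := by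
  simp [cE, Matrix.mul_sub]

lemma cE_neg (K A : Matrix n n ℂ) : cE K (-A) = -cE K A := by
  simp [cE]

lemma cE_smul (K A : Matrix n n ℂ) (c : ℂ) : cE K (c • A) = c * cE K A := by
  simp [cE]

lemma cE_sum {ι : Type*} (s : Finset ι) (K : Matrix n n ℂ) (f : ι → Matrix n n ℂ) :
    cE K (∑ i ∈ s, f i) = ∑ i ∈ s, cE K (f i) := by
  simp [cE, Finset.mul_sum, Matrix.trace_sum]

lemma cE_conjTranspose {K : Matrix n n ℂ} (hK : K.IsHermitian) (A : Matrix n n ℂ) :
    cE K Aᴴ = star (cE K A) := by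
  unfold cE
  have h1 : (NormedSpace.exp K)ᴴ = NormedSpace.exp K := by
    rw [← Matrix.exp_conjTranspose, hK.eq]
  rw [← Matrix.trace_conjTranspose, Matrix.conjTranspose_mul, h1, Matrix.trace_mul_comm]

lemma cE_transpose {K : Matrix n n ℂ} (hK : Kᵀ = K) (A : Matrix n n ℂ) :
    cE K Aᵀ = cE K A := by
  unfold cE
  have h1 : (NormedSpace.exp K)ᵀ = NormedSpace.exp K := by
    rw [← Matrix.exp_transpose, hK]
  conv_rhs => rw [← Matrix.trace_transpose, Matrix.transpose_mul, h1, Matrix.trace_mul_comm]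

/-- Gibbs functional of a diagonal matrix with nonnegative entries -/
lemma gE_diagonal_nonneg {K : Matrix n n ℂ} (hK : K.IsHermitian) (v : n → ℝ) (hv : ∀ i, 0 ≤ v i) :
    0 ≤ gE K (diagonal (fun i => ((v i : ℝ) : ℂ))) := by
  have h := gE_nonneg hK (diagonal (fun i => ((Real.sqrt (v i) : ℝ) : ℂ)))
  rw [Matrix.diagonal_conjTranspose, Matrix.diagonal_mul_diagonal] at h
  have e : (fun i => ((v i : ℝ) : ℂ)) = fun i => star (fun i => ((Real.sqrt (v i) : ℝ) : ℂ)) i
      * ((Real.sqrt (v i) : ℝ) : ℂ) := by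
    ext i
    rw [Pi.star_apply, Complex.star_def, Complex.conj_ofReal, ← Complex.ofReal_mul,
      Real.mul_self_sqrt (hv i)]
  rw [e]
  exact h

lemma gE_diagonal_mono {K : Matrix n n ℂ} (hK : K.IsHermitian) (v w : n → ℝ)
    (hv : ∀ i, v i ≤ w i) :
    gE K (diagonal (fun i => ((v i : ℝ) : ℂ))) ≤ gE K (diagonal (fun i => ((w i : ℝ) : ℂ))) := by
  have h := gE_diagonal_nonneg hK (fun i => w i - v i) (fun i => sub_nonneg.mpr (hv i))
  have e : (diagonal (fun i => (((w i - v i : ℝ)) : ℂ)) : Matrix n n ℂ)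
      = diagonal (fun i => ((w i : ℝ) : ℂ)) - diagonal (fun i => ((v i : ℝ) : ℂ)) := by
    rw [Matrix.diagonal_sub]; congr 1; ext i; push_cast; ring
  rw [e, gE_sub] at h
  linarith

end cE

variable {Λ : Type*} [Fintype Λ] [DecidableEq Λ] (d : ℕ)

/-- exchange Hamiltonian `- ∑_{edges} 𝐒_x · 𝐒_y` (as `1/2` of the sum over ordered pairs) -/
noncomputable def hamG (adj : Λ → Λ → Prop) [DecidableRel adj] :
    Matrix (Λ → Fin (d + 1)) (Λ → Fin (d + 1)) ℂ :=
  -((1 / 2 : ℂ) • ∑ x, ∑ y, if adj x y then bond d x y else 0)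

/-- total third spin component -/
noncomputable def magG : Matrix (Λ → Fin (d + 1)) (Λ → Fin (d + 1)) ℂ :=
  ∑ x : Λ, zS d x

/-- `-β (H - h M)` -/
noncomputable def gibbsK (adj : Λ → Λ → Prop) [DecidableRel adj] (β h : ℝ) :
    Matrix (Λ → Fin (d + 1)) (Λ → Fin (d + 1)) ℂ :=
  (-(β : ℂ)) • (hamG d adj - (h : ℂ) • magG d)

variable {d}

lemma bond_conjTranspose {x y : Λ} (h : x ≠ y) : (bond d x y)ᴴ = bond d x y := by
  rw [bond_eq, Matrix.conjTranspose_add, Matrix.conjTranspose_smul, Matrix.conjTranspose_add,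
    Matrix.conjTranspose_mul, Matrix.conjTranspose_mul, Matrix.conjTranspose_mul,
    zS_conjTranspose, zS_conjTranspose, pS_conjTranspose, mS_conjTranspose, pS_conjTranspose,
    mS_conjTranspose]
  have e1 : zS d y * zS d x = zS d x * zS d y := siteOp_comm h.symm _ _
  have e2 : pS d y * mS d x = mS d x * pS d y := siteOp_comm h.symm _ _
  have e3 : mS d y * pS d x = pS d x * mS d y := siteOp_comm h.symm _ _
  rw [e1, e2, e3, add_comm (mS d x * pS d y)]
  simp

lemma bond_transpose {x y : Λ} (h : x ≠ y) : (bond d x y)ᵀ = bond d x y := by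
  rw [bond_eq, Matrix.transpose_add, Matrix.transpose_smul, Matrix.transpose_add,
    Matrix.transpose_mul, Matrix.transpose_mul, Matrix.transpose_mul,
    zS_transpose, zS_transpose, pS_transpose, mS_transpose, pS_transpose,
    mS_transpose]
  have e1 : zS d y * zS d x = zS d x * zS d y := siteOp_comm h.symm _ _
  have e2 : pS d y * mS d x = mS d x * pS d y := siteOp_comm h.symm _ _
  have e3 : mS d y * pS d x = pS d x * mS d y := siteOp_comm h.symm _ _
  rw [e1, e2, e3, add_comm (mS d x * pS d y)]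

variable {adj : Λ → Λ → Prop} [DecidableRel adj]

lemma hamG_conjTranspose (hadj : ∀ x y, adj x y → x ≠ y) : (hamG d adj)ᴴ = hamG d adj := by
  unfold hamG
  rw [Matrix.conjTranspose_neg, Matrix.conjTranspose_smul, Matrix.conjTranspose_sum]
  congr 2
  · simp
  · refine Finset.sum_congr rfl fun x _ => ?_
    rw [Matrix.conjTranspose_sum]
    refine Finset.sum_congr rfl fun y _ => ?_
    split_ifs with h
    · exact bond_conjTranspose (hadj x y h)
    · simp

lemma hamG_transpose (hadj : ∀ x y, adj x y → x ≠ y) : (hamG d adj)ᵀ = hamG d adj := by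
  unfold hamG
  rw [Matrix.transpose_neg, Matrix.transpose_smul, Matrix.transpose_sum]
  congr 2
  refine Finset.sum_congr rfl fun x _ => ?_
  rw [Matrix.transpose_sum]
  refine Finset.sum_congr rfl fun y _ => ?_
  split_ifs with h
  · exact bond_transpose (hadj x y h)
  · simp

lemma magG_conjTranspose : (magG d : Matrix (Λ → Fin (d + 1)) _ ℂ)ᴴ = magG d := by
  unfold magG
  rw [Matrix.conjTranspose_sum]
  exact Finset.sum_congr rfl fun x _ => zS_conjTranspose x

lemma magG_transpose : (magG d : Matrix (Λ → Fin (d + 1)) _ ℂ)ᵀ = magG d := by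
  unfold magG
  rw [Matrix.transpose_sum]
  exact Finset.sum_congr rfl fun x _ => zS_transpose x

lemma gibbsK_hermitian (hadj : ∀ x y, adj x y → x ≠ y) (β h : ℝ) :
    (gibbsK d adj β h).IsHermitian := by
  unfold gibbsK Matrix.IsHermitian
  rw [Matrix.conjTranspose_smul, Matrix.conjTranspose_sub, Matrix.conjTranspose_smul,
    hamG_conjTranspose hadj, magG_conjTranspose]
  simp

lemma gibbsK_transpose (hadj : ∀ x y, adj x y → x ≠ y) (β h : ℝ) :
    (gibbsK d adj β h)ᵀ = gibbsK d adj β h := by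
  unfold gibbsK
  rw [Matrix.transpose_smul, Matrix.transpose_sub, Matrix.transpose_smul,
    hamG_transpose hadj, magG_transpose]

/-- the double commutator functional -/
noncomputable def dcom (X A : Matrix (Λ → Fin (d + 1)) (Λ → Fin (d + 1)) ℂ) :
    Matrix (Λ → Fin (d + 1)) (Λ → Fin (d + 1)) ℂ :=
  (X * A - A * X) * Aᴴ - Aᴴ * (X * A - A * X)

lemma dcom_add (X Y A : Matrix (Λ → Fin (d + 1)) (Λ → Fin (d + 1)) ℂ) :
    dcom (X + Y) A = dcom X A + dcom Y A := by
  unfold dcom; noncomm_ring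

lemma dcom_smul (c : ℂ) (X A : Matrix (Λ → Fin (d + 1)) (Λ → Fin (d + 1)) ℂ) :
    dcom (c • X) A = c • dcom X A := by
  unfold dcom
  simp only [Matrix.smul_mul, Matrix.mul_smul, ← smul_sub]

lemma dcom_zero (A : Matrix (Λ → Fin (d + 1)) (Λ → Fin (d + 1)) ℂ) :
    dcom 0 A = 0 := by
  unfold dcom; simp

lemma dcom_sum {ι : Type*} (s : Finset ι) (f : ι → Matrix (Λ → Fin (d + 1)) (Λ → Fin (d + 1)) ℂ)
    (A : Matrix (Λ → Fin (d + 1)) (Λ → Fin (d + 1)) ℂ) :
    dcom (∑ i ∈ s, f i) A = ∑ i ∈ s, dcom (f i) A := by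
  classical
  induction s using Finset.induction_on with
  | empty => simp [dcom_zero]
  | insert a s ha ih => rw [Finset.sum_insert ha, Finset.sum_insert ha, dcom_add, ih]

/-- `gE` of the double commutator with one bond -/
lemma gE_dcom_bond {K : Matrix (Λ → Fin (d + 1)) (Λ → Fin (d + 1)) ℂ} (hK : K.IsHermitian)
    (hKt : Kᵀ = K) {x y : Λ} (h : x ≠ y) (c : Λ → ℂ) :
    gE K (dcom (bond d x y) (modeA d c)) =
      Complex.normSq (c x - c y) * (2 * gE K (zS d x * zS d y) + gE K (mS d x * pS d y)) := by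
  have e2 : pS d y * mS d x = mS d x * pS d y := siteOp_comm h.symm _ _
  have ezz : zS d y * zS d x = zS d x * zS d y := siteOp_comm h.symm _ _
  have hcon : (pS d x * mS d y)ᴴ = mS d x * pS d y := by
    rw [Matrix.conjTranspose_mul, pS_conjTranspose, mS_conjTranspose, e2]
  have htr : (pS d x * mS d y)ᵀ = mS d x * pS d y := by
    rw [Matrix.transpose_mul, pS_transpose, mS_transpose, e2]
  have hg1 : cE K (mS d x * pS d y) = star (cE K (pS d x * mS d y)) := by
    rw [← hcon, cE_conjTranspose hK]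
  have hg2 : cE K (mS d x * pS d y) = cE K (pS d x * mS d y) := by
    rw [← htr, cE_transpose hKt]
  have hreal : cE K (mS d x * pS d y) = ((gE K (mS d x * pS d y) : ℝ) : ℂ) := by
    have h3 : star (cE K (mS d x * pS d y)) = cE K (mS d x * pS d y) := by
      rw [hg2, ← hg1, hg2]
    rw [gE_eq_re]
    exact (Complex.conj_eq_iff_re.mp h3).symm
  have hz : cE K (zS d x * zS d y) = ((gE K (zS d x * zS d y) : ℝ) : ℂ) := by
    have h3 : star (cE K (zS d x * zS d y)) = cE K (zS d x * zS d y) := by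
      rw [← cE_conjTranspose hK, Matrix.conjTranspose_mul, zS_conjTranspose, zS_conjTranspose, ezz]
    rw [gE_eq_re]
    exact (Complex.conj_eq_iff_re.mp h3).symm
  unfold dcom
  rw [bond_double_comm h, gE_eq_re, cE_smul, cE_add, cE_smul, cE_smul, cE_sub, cE_neg, cE_smul,
    cE_add, cE_smul, ← hg2, hreal, hz]
  set g := gE K (mS d x * pS d y)
  set z := gE K (zS d x * zS d y)
  have : (c y - c x) * (star (c x) * (-(g : ℂ) - 2 * (z : ℂ)) + star (c y) * (2 * (z : ℂ) + (g : ℂ)))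
      = (((Complex.normSq (c x - c y)) * (2 * z + g) : ℝ) : ℂ) := by
    push_cast
    rw [← Complex.mul_conj, map_sub]
    simp only [Complex.star_def]
    ring
  rw [this, Complex.ofReal_re]

/-- deviation `S - S³_x` as a diagonal matrix -/
noncomputable def devS (d : ℕ) (x : Λ) : Matrix (Λ → Fin (d + 1)) (Λ → Fin (d + 1)) ℂ :=
  diagonal (fun σ => (((σ x : ℕ) : ℝ) : ℂ))

lemma mp_le {K : Matrix (Λ → Fin (d + 1)) (Λ → Fin (d + 1)) ℂ} (hK : K.IsHermitian) (x : Λ) :
    gE K (mS d x * pS d x) ≤ d * gE K (devS d x) := by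
  have h1 : mS d x * pS d x = diagonal (fun σ : Λ → Fin (d + 1) =>
      (((σ x : ℕ) * (d + 1 - (σ x : ℕ)) : ℝ) : ℂ)) := by
    unfold mS pS
    rw [siteOp_mul_same, lower_mul_raise, siteOp_diagonal]
    congr 1
    ext σ
    push_cast; ring
  have h2 : (d : ℝ) * gE K (devS d x) = gE K (diagonal (fun σ : Λ → Fin (d + 1) =>
      (((d : ℝ) * (σ x : ℕ) : ℝ) : ℂ))) := by
    rw [← gE_smul]
    congr 1
    unfold devS
    rw [← Matrix.diagonal_smul]
    congr 1
    ext σ
    simp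
  rw [h1, h2]
  apply gE_diagonal_mono hK
  intro σ
  rcases Nat.eq_zero_or_pos (σ x : ℕ) with h0 | h0
  · rw [h0]; simp
  · have h0' : (1 : ℝ) ≤ ((σ x : ℕ) : ℝ) := by exact_mod_cast h0
    nlinarith

lemma devS_nonneg {K : Matrix (Λ → Fin (d + 1)) (Λ → Fin (d + 1)) ℂ} (hK : K.IsHermitian) (x : Λ) :
    0 ≤ gE K (devS d x) := by
  unfold devS
  exact gE_diagonal_nonneg hK _ (fun σ => by positivity)

lemma devS_eq (x : Λ) : devS d x = ((d / 2 : ℝ) : ℂ) • (1 : Matrix (Λ → Fin (d + 1)) _ ℂ)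
    - zS d x := by
  unfold devS
  rw [zS_eq_diagonal, ← Matrix.diagonal_one, ← Matrix.diagonal_smul, Matrix.diagonal_sub]
  congr 1
  ext σ
  simp [zval]

lemma zz_le {K : Matrix (Λ → Fin (d + 1)) (Λ → Fin (d + 1)) ℂ} (hK : K.IsHermitian) (x y : Λ) :
    gE K (zS d x * zS d y) ≤ (d / 2 : ℝ) ^ 2 * gE K 1 := by
  have h1 : zS d x * zS d y = diagonal (fun σ : Λ → Fin (d + 1) =>
      ((zval d x σ * zval d y σ : ℝ) : ℂ)) := by
    rw [zS_eq_diagonal, zS_eq_diagonal, Matrix.diagonal_mul_diagonal]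
    congr 1
    ext σ
    push_cast; ring
  have h2 : (d / 2 : ℝ) ^ 2 * gE K 1 = gE K (diagonal (fun σ : Λ → Fin (d + 1) =>
      (((d / 2 : ℝ) ^ 2 : ℝ) : ℂ))) := by
    rw [← gE_smul, ← Matrix.diagonal_one, ← Matrix.diagonal_smul]
    congr 2
    ext σ
    simp
  rw [h1, h2]
  apply gE_diagonal_mono hK
  intro σ
  have hx : |zval d x σ| ≤ d / 2 := by
    unfold zval
    have h3 : ((σ x : ℕ) : ℝ) ≤ d := by
      have := (σ x).2
      exact_mod_cast (by omega : (σ x : ℕ) ≤ d)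
    have h4 : (0 : ℝ) ≤ ((σ x : ℕ) : ℝ) := by positivity
    rw [abs_le]; constructor <;> linarith
  have hy : |zval d y σ| ≤ d / 2 := by
    unfold zval
    have h3 : ((σ y : ℕ) : ℝ) ≤ d := by
      have := (σ y).2
      exact_mod_cast (by omega : (σ y : ℕ) ≤ d)
    have h4 : (0 : ℝ) ≤ ((σ y : ℕ) : ℝ) := by positivity
    rw [abs_le]; constructor <;> linarith
  calc zval d x σ * zval d y σ ≤ |zval d x σ * zval d y σ| := le_abs_self _
    _ = |zval d x σ| * |zval d y σ| := abs_mul _ _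
    _ ≤ (d / 2) * (d / 2) := mul_le_mul hx hy (abs_nonneg _) (by positivity)
    _ = (d / 2 : ℝ) ^ 2 := by ring

lemma g_le {K : Matrix (Λ → Fin (d + 1)) (Λ → Fin (d + 1)) ℂ} (hK : K.IsHermitian)
    (hKt : Kᵀ = K) {x y : Λ} (h : x ≠ y) :
    gE K (mS d x * pS d y) ≤ (d / 2 : ℝ) * (gE K (devS d x) + gE K (devS d y)) := by
  have e2 : pS d y * mS d x = mS d x * pS d y := siteOp_comm h.symm _ _
  have e3 : mS d y * pS d x = pS d x * mS d y := siteOp_comm h.symm _ _
  have htr : (pS d x * mS d y)ᵀ = mS d x * pS d y := by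
    rw [Matrix.transpose_mul, pS_transpose, mS_transpose, e2]
  have hg2 : gE K (mS d x * pS d y) = gE K (pS d x * mS d y) := by
    rw [gE_eq_re, gE_eq_re, ← htr, cE_transpose hKt]
  have h0 := gE_nonneg hK (pS d x - pS d y)
  rw [Matrix.conjTranspose_sub, pS_conjTranspose, pS_conjTranspose, Matrix.sub_mul, Matrix.mul_sub,
    Matrix.mul_sub, gE_sub, gE_sub, gE_sub, e3, ← hg2] at h0
  have hx := mp_le hK x
  have hy := mp_le hK y
  linarith

/-- per-bond estimate -/
lemma gE_dcom_bond_le {K : Matrix (Λ → Fin (d + 1)) (Λ → Fin (d + 1)) ℂ} (hK : K.IsHermitian)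
    (hKt : Kᵀ = K) {x y : Λ} (h : x ≠ y) (c : Λ → ℂ) :
    gE K (dcom (bond d x y) (modeA d c)) ≤
      Complex.normSq (c x - c y) * (2 * ((d / 2 : ℝ) ^ 2 * gE K 1)
        + (d / 2 : ℝ) * (gE K (devS d x) + gE K (devS d y))) := by
  rw [gE_dcom_bond hK hKt h]
  apply mul_le_mul_of_nonneg_left _ (Complex.normSq_nonneg _)
  have := zz_le hK x y
  have := g_le hK hKt h
  linarith

end Vale.Agent.P361
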