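import Vale.Agent.P361.FiniteVol

/-!
# The finite-volume magnetisation inequality, summed form
-/

namespace Vale.Agent.P361

open Matrix

variable {Λ : Type*} [Fintype Λ] [DecidableEq Λ] {d : ℕ}
variable {adj : Λ → Λ → Prop} [DecidableRel adj]

lemma gibbsK_eq (β h : ℝ) : gibbsK d adj β h
    = ((β / 2 : ℝ) : ℂ) • (∑ x, ∑ y, if adj x y then bond d x y else 0)
      + ((β * h : ℝ) : ℂ) • magG d := by
  unfold gibbsK hamG
  rw [smul_sub, smul_neg, neg_smul, neg_smul, neg_neg, smul_smul, smul_smul, sub_neg_eq_add]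
  congr 2
  · push_cast; ring
  · push_cast; ring

lemma dcom_magG (c : Λ → ℂ) : dcom (magG d) (modeA d c)
    = modeA d c * (modeA d c)ᴴ - (modeA d c)ᴴ * modeA d c := by
  unfold dcom magG
  rw [mag_comm_modeA]

lemma sum_devS {K : Matrix (Λ → Fin (d + 1)) (Λ → Fin (d + 1)) ℂ} :
    ∑ x, gE K (devS d x) = Fintype.card Λ * ((d / 2 : ℝ) * gE K 1) - gE K (magG d) := by
  have : ∀ x : Λ, gE K (devS d x) = (d / 2 : ℝ) * gE K 1 - gE K (zS d x) := by
    intro x
    rw [devS_eq, gE_sub, gE_smul]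
  rw [Finset.sum_congr rfl fun x _ => this x, Finset.sum_sub_distrib, Finset.sum_const,
    Finset.card_univ, nsmul_eq_mul]
  unfold magG
  rw [gE_sum]

omit [DecidableEq Λ] in
lemma pair_sum_le (hsym : ∀ x y, adj x y → adj y x) (c : Λ → ℂ) (Θ : ℝ)
    (hΘ : ∀ x, (∑ y, if adj x y then Complex.normSq (c x - c y) else 0) ≤ 2 * Θ)
    (D : Λ → ℝ) (hD : ∀ x, 0 ≤ D x) (a b : ℝ) (ha : 0 ≤ a) (hb : 0 ≤ b) :
    (∑ x, ∑ y, if adj x y then Complex.normSq (c x - c y) * (2 * a + b * (D x + D y)) else 0)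
      ≤ Fintype.card Λ * (4 * a * Θ) + 4 * b * Θ * ∑ x, D x := by
  have h1 : (∑ x, ∑ y, if adj x y then Complex.normSq (c x - c y) * (2 * a + b * (D x + D y))
      else 0) = ∑ x, (2 * a + b * D x) * (∑ y, if adj x y then Complex.normSq (c x - c y) else 0)
      + ∑ x, ∑ y, if adj x y then Complex.normSq (c x - c y) * (b * D y) else 0 := by
    rw [← Finset.sum_add_distrib]
    refine Finset.sum_congr rfl fun x _ => ?_
    rw [Finset.mul_sum, ← Finset.sum_add_distrib]
    refine Finset.sum_congr rfl fun y _ => ?_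
    split_ifs <;> ring
  have h2 : (∑ x, ∑ y, if adj x y then Complex.normSq (c x - c y) * (b * D y) else 0)
      = ∑ x, (b * D x) * (∑ y, if adj x y then Complex.normSq (c x - c y) else 0) := by
    rw [Finset.sum_comm]
    refine Finset.sum_congr rfl fun y _ => ?_
    rw [Finset.mul_sum]
    refine Finset.sum_congr rfl fun x _ => ?_
    have hiff : adj x y ↔ adj y x := ⟨hsym x y, hsym y x⟩
    have hns : Complex.normSq (c x - c y) = Complex.normSq (c y - c x) := by
      rw [← Complex.normSq_neg]; congr 1; ring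
    simp only [hiff, hns]
    split_ifs <;> ring
  rw [h1, h2, ← Finset.sum_add_distrib]
  calc ∑ x, ((2 * a + b * D x) * (∑ y, if adj x y then Complex.normSq (c x - c y) else 0)
        + (b * D x) * (∑ y, if adj x y then Complex.normSq (c x - c y) else 0))
      ≤ ∑ x, (4 * a * Θ + 4 * b * Θ * D x) := by
        refine Finset.sum_le_sum fun x _ => ?_
        have hx := hΘ x
        have hDx := hD x
        have : (2 * a + b * D x) * (∑ y, if adj x y then Complex.normSq (c x - c y) else 0)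
          + (b * D x) * (∑ y, if adj x y then Complex.normSq (c x - c y) else 0)
          = (2 * a + 2 * (b * D x)) * (∑ y, if adj x y then Complex.normSq (c x - c y) else 0) := by
          ring
        rw [this]
        have hbD : 0 ≤ b * D x := mul_nonneg hb hDx
        calc _ ≤ (2 * a + 2 * (b * D x)) * (2 * Θ) :=
              mul_le_mul_of_nonneg_left hx (by linarith)
          _ = _ := by ring
    _ = _ := by
        rw [Finset.sum_add_distrib, Finset.sum_const, Finset.card_univ, nsmul_eq_mul,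
          Finset.mul_sum]

/-- Bound on the double commutator term. -/
lemma gE_dcom_gibbsK_le (hadj : ∀ x y, adj x y → x ≠ y) (hsym : ∀ x y, adj x y → adj y x)
    {β h : ℝ} (hβ : 0 < β) (c : Λ → ℂ) (hc : ∀ x, c x * star (c x) = 1) (Θ : ℝ)
    (hΘ : ∀ x, (∑ y, if adj x y then Complex.normSq (c x - c y) else 0) ≤ 2 * Θ) :
    gE (gibbsK d adj β h) (dcom (gibbsK d adj β h) (modeA d c)) ≤
      2 * β * Θ * (Fintype.card Λ * ((d / 2 : ℝ) ^ 2 * gE (gibbsK d adj β h) 1)
        + (d / 2 : ℝ) * ∑ x, gE (gibbsK d adj β h) (devS d x))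
      + 2 * β * h * gE (gibbsK d adj β h) (magG d) := by
  set K := gibbsK d adj β h with hKdef
  have hK : K.IsHermitian := gibbsK_hermitian hadj β h
  have hKt : Kᵀ = K := gibbsK_transpose hadj β h
  have e1 : dcom K (modeA d c) = ((β / 2 : ℝ) : ℂ) • (∑ x, ∑ y, if adj x y then
      dcom (bond d x y) (modeA d c) else 0) + ((β * h : ℝ) : ℂ) • ((2 : ℂ) • magG d) := by
    conv_lhs => rw [hKdef, gibbsK_eq]
    rw [dcom_add, dcom_smul, dcom_smul, dcom_magG, modeA_comm c hc, dcom_sum]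
    congr 2
    refine Finset.sum_congr rfl fun x _ => ?_
    rw [dcom_sum]
    refine Finset.sum_congr rfl fun y _ => ?_
    split_ifs
    · rfl
    · exact dcom_zero _
  rw [e1, gE_add, gE_smul, gE_smul, gE_sum]
  have e2 : gE K ((2 : ℂ) • magG d) = 2 * gE K (magG d) := by
    have := gE_smul K (magG d) 2
    push_cast at this
    exact this
  rw [e2]
  have e3 : ∑ x, gE K (∑ y, if adj x y then dcom (bond d x y) (modeA d c) else 0)
      ≤ Fintype.card Λ * (4 * ((d / 2 : ℝ) ^ 2 * gE K 1) * Θ)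
        + 4 * (d / 2 : ℝ) * Θ * ∑ x, gE K (devS d x) := by
    have hz : 0 ≤ gE K 1 := by
      have := gE_nonneg hK (1 : Matrix (Λ → Fin (d + 1)) (Λ → Fin (d + 1)) ℂ)
      simpa using this
    refine le_trans ?_ (pair_sum_le hsym c Θ hΘ (fun x => gE K (devS d x))
      (fun x => devS_nonneg hK x) ((d / 2 : ℝ) ^ 2 * gE K 1) (d / 2 : ℝ) (by positivity)
      (by positivity))
    refine Finset.sum_le_sum fun x _ => ?_
    rw [gE_sum]
    refine Finset.sum_le_sum fun y _ => ?_
    split_ifs with hxy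
    · exact gE_dcom_bond_le hK hKt (hadj x y hxy) c
    · rw [gE_zero]
  have hb2 : 0 ≤ β / 2 := by linarith
  have := mul_le_mul_of_nonneg_left e3 hb2
  calc β / 2 * ∑ x, gE K (∑ y, if adj x y then dcom (bond d x y) (modeA d c) else 0)
        + β * h * (2 * gE K (magG d))
      ≤ β / 2 * (Fintype.card Λ * (4 * ((d / 2 : ℝ) ^ 2 * gE K 1) * Θ)
        + 4 * (d / 2 : ℝ) * Θ * ∑ x, gE K (devS d x)) + β * h * (2 * gE K (magG d)) := by
        linarith
    _ = _ := by ring

/-- lower bound on the occupation of one mode -/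
lemma mode_lower (hadj : ∀ x y, adj x y → x ≠ y) (hsym : ∀ x y, adj x y → adj y x)
    {β h m : ℝ} (hβ : 0 < β) (hm0 : 0 < m)
    (hm : gE (gibbsK d adj β h) (magG d)
      = Fintype.card Λ * gE (gibbsK d adj β h) 1 * m)
    (c : Λ → ℂ) (hc : ∀ x, c x * star (c x) = 1) (Θ : ℝ)
    (hΘ : ∀ x, (∑ y, if adj x y then Complex.normSq (c x - c y) else 0) ≤ 2 * Θ)
    (hu : 0 < β * (Θ * (d / 2 : ℝ) * (d - m) / m + h)) :
    2 * (Fintype.card Λ * gE (gibbsK d adj β h) 1 * m)
        * (1 / (Real.exp (β * (Θ * (d / 2 : ℝ) * (d - m) / m + h)) - 1))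
      ≤ gE (gibbsK d adj β h) ((modeA d c)ᴴ * modeA d c) := by
  set K := gibbsK d adj β h with hKdef
  set u := β * (Θ * (d / 2 : ℝ) * (d - m) / m + h) with hudef
  have hK : K.IsHermitian := gibbsK_hermitian hadj β h
  have h1 := spectral_ineq hK (modeA d c) hu
  have h2 := gE_dcom_gibbsK_le (d := d) (h := h) hadj hsym hβ c hc Θ hΘ
  rw [← hKdef] at h2
  have h3 : gE K (modeA d c * (modeA d c)ᴴ - (modeA d c)ᴴ * modeA d c)
      = 2 * (Fintype.card Λ * gE K 1 * m) := by
    rw [modeA_comm c hc]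
    have := gE_smul K (magG d) 2
    push_cast at this
    rw [← hm]
    exact this
  have h4 : (K * modeA d c - modeA d c * K) * (modeA d c)ᴴ
      - (modeA d c)ᴴ * (K * modeA d c - modeA d c * K) = dcom K (modeA d c) := rfl
  rw [h3, h4] at h1
  have h5 := sum_devS (d := d) (Λ := Λ) (K := K)
  rw [h5, hm] at h2
  have h6 : 2 * β * Θ * (Fintype.card Λ * ((d / 2 : ℝ) ^ 2 * gE K 1)
        + (d / 2 : ℝ) * (Fintype.card Λ * ((d / 2 : ℝ) * gE K 1)
          - Fintype.card Λ * gE K 1 * m))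
      + 2 * β * h * (Fintype.card Λ * gE K 1 * m)
      = 2 * (Fintype.card Λ * gE K 1 * m) * u := by
    rw [hudef]
    field_simp
    ring
  rw [h6] at h2
  have hs := slopeC_pos hu
  calc 2 * (Fintype.card Λ * gE K 1 * m) * (1 / (Real.exp u - 1))
      = interC u * (2 * (Fintype.card Λ * gE K 1 * m))
        - slopeC u * (2 * (Fintype.card Λ * gE K 1 * m) * u) := by
        rw [← interC_sub]; ring
    _ ≤ interC u * (2 * (Fintype.card Λ * gE K 1 * m))
        - slopeC u * gE K (dcom K (modeA d c)) := by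
        have := mul_le_mul_of_nonneg_left h2 hs.le
        linarith
    _ ≤ _ := h1

/-- Parseval identity -/
lemma parseval {κ : Type*} [Fintype κ] (c : κ → Λ → ℂ)
    (horth : ∀ x y, ∑ k, star (c k x) * c k y = if x = y then (Fintype.card κ : ℂ) else 0) :
    ∑ k, (modeA d (c k))ᴴ * modeA d (c k) = ((Fintype.card κ : ℝ) : ℂ) • ∑ x, mS d x * pS d x := by
  have h1 : ∀ k, (modeA d (c k))ᴴ * modeA d (c k)
      = ∑ x, ∑ y, (star (c k x) * c k y) • (mS d x * pS d y) := by
    intro k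
    rw [modeA_conjTranspose]
    unfold modeA
    rw [Finset.sum_mul]
    refine Finset.sum_congr rfl fun x _ => ?_
    rw [Finset.mul_sum]
    refine Finset.sum_congr rfl fun y _ => ?_
    rw [Matrix.smul_mul, Matrix.mul_smul, smul_smul]
  rw [Finset.sum_congr rfl fun k _ => h1 k, Finset.sum_comm, Finset.smul_sum]
  refine Finset.sum_congr rfl fun x _ => ?_
  rw [Finset.sum_comm]
  have h2 : ∀ y, ∑ k, (star (c k x) * c k y) • (mS d x * pS d y)
      = (if x = y then (Fintype.card κ : ℂ) else 0) • (mS d x * pS d y) := by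
    intro y
    rw [← Finset.sum_smul, horth]
  rw [Finset.sum_congr rfl fun y _ => h2 y, Finset.sum_eq_single x]
  · simp
  · intro y _ hy
    rw [if_neg (Ne.symm hy), zero_smul]
  · simp

/-- `e^K` has positive trace -/
lemma gE_one_pos {n : Type*} [Fintype n] [DecidableEq n] [Nonempty n] {K : Matrix n n ℂ}
    (hK : K.IsHermitian) : 0 < gE K 1 := by
  obtain ⟨U, e, hU1, hU2, hKd, hexp⟩ := exists_diag hK
  unfold gE
  rw [Matrix.mul_one, hexp, Matrix.mul_assoc, Matrix.trace_mul_comm, Matrix.mul_assoc, hU2,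
    Matrix.mul_one, Matrix.trace_diagonal, Complex.re_sum]
  simp only [Complex.ofReal_re]
  exact Finset.sum_pos (fun i _ => Real.exp_pos _) Finset.univ_nonempty

/-- **Finite volume inequality.** -/
theorem finite_volume [Nonempty Λ] {κ : Type*} [Fintype κ]
    (hadj : ∀ x y, adj x y → x ≠ y) (hsym : ∀ x y, adj x y → adj y x)
    {β h m : ℝ} (hβ : 0 < β) (hm0 : 0 < m)
    (hm : gE (gibbsK d adj β h) (magG d)
      = Fintype.card Λ * gE (gibbsK d adj β h) 1 * m)
    (c : κ → Λ → ℂ) (hc : ∀ k x, c k x * star (c k x) = 1)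
    (horth : ∀ x y, ∑ k, star (c k x) * c k y = if x = y then (Fintype.card κ : ℂ) else 0)
    (Θ : κ → ℝ)
    (hΘ : ∀ k x, (∑ y, if adj x y then Complex.normSq (c k x - c k y) else 0) ≤ 2 * Θ k)
    (hu : ∀ k, 0 < β * (Θ k * (d / 2 : ℝ) * (d - m) / m + h)) :
    m * ∑ k, 1 / (Real.exp (β * (Θ k * (d / 2 : ℝ) * (d - m) / m + h)) - 1)
      ≤ Fintype.card κ * ((d / 2 : ℝ) * (d / 2 - m)) := by
  set K := gibbsK d adj β h with hKdef
  have hK : K.IsHermitian := gibbsK_hermitian hadj β h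
  have hz : 0 < gE K 1 := gE_one_pos hK
  have hV : (0 : ℝ) < Fintype.card Λ := by exact_mod_cast Fintype.card_pos
  have h1 : ∑ k, 2 * (Fintype.card Λ * gE K 1 * m)
        * (1 / (Real.exp (β * (Θ k * (d / 2 : ℝ) * (d - m) / m + h)) - 1))
      ≤ ∑ k, gE K ((modeA d (c k))ᴴ * modeA d (c k)) :=
    Finset.sum_le_sum fun k _ => mode_lower hadj hsym hβ hm0 hm (c k) (hc k) (Θ k) (hΘ k) (hu k)
  rw [← gE_sum, parseval c horth, gE_smul, gE_sum] at h1
  have h2 : ∑ x, gE K (mS d x * pS d x) ≤ ∑ x, d * gE K (devS d x) :=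
    Finset.sum_le_sum fun x _ => mp_le hK x
  rw [← Finset.mul_sum, sum_devS, hm] at h2
  have h3 := mul_le_mul_of_nonneg_left h2 (by positivity : (0 : ℝ) ≤ Fintype.card κ)
  have h4 := h1.trans h3
  rw [← Finset.mul_sum] at h4
  have hVz : 0 < 2 * (Fintype.card Λ * gE K 1) := by positivity
  refine le_of_mul_le_mul_left ?_ hVz
  calc 2 * (Fintype.card Λ * gE K 1) *
        (m * ∑ k, 1 / (Real.exp (β * (Θ k * (d / 2 : ℝ) * (d - m) / m + h)) - 1))
      = 2 * (Fintype.card Λ * gE K 1 * m)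
        * ∑ k, 1 / (Real.exp (β * (Θ k * (d / 2 : ℝ) * (d - m) / m + h)) - 1) := by ring
    _ ≤ _ := h4
    _ = _ := by ring

end Vale.Agent.P361
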