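import Vale.Agent.P361.Box

/-!
# Lower bounds for the momentum sums
-/

namespace Vale.Agent.P361

open Matrix

/-- `I(s) = (1/π) ∫_0^π e^{-s t²} dt` -/
noncomputable def gaussI (s : ℝ) : ℝ := (1 / Real.pi) * ∫ t in (0 : ℝ)..Real.pi, Real.exp (-s * t ^ 2)

lemma even_sum (g : ℤ → ℝ) (hg : ∀ j, g (-j) = g j) (N : ℕ) :
    ∑ j ∈ Finset.Icc (-(N : ℤ)) (N : ℤ), g j = 2 * ∑ i ∈ Finset.range (N + 1), g (i : ℤ) - g 0 := by
  induction N with
  | zero => simp; ring
  | succ N ih =>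
    have hset : Finset.Icc (-((N + 1 : ℕ) : ℤ)) ((N + 1 : ℕ) : ℤ)
        = insert (-((N + 1 : ℕ) : ℤ)) (insert ((N + 1 : ℕ) : ℤ)
          (Finset.Icc (-(N : ℤ)) (N : ℤ))) := by
      ext a
      simp only [Finset.mem_Icc, Finset.mem_insert]
      push_cast
      omega
    rw [hset, Finset.sum_insert, Finset.sum_insert, ih, hg, Finset.sum_range_succ _ (N + 1)]
    · push_cast; ring
    · simp only [Finset.mem_Icc]
      push_cast
      omega
    · simp only [Finset.mem_insert, Finset.mem_Icc]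
      push_cast
      omega

lemma gauss_sum_lower {s : ℝ} (hs : 0 ≤ s) (N : ℕ) :
    (2 * N + 1 : ℝ) * gaussI s - 1 ≤
      ∑ j ∈ Finset.Icc (-(N : ℤ)) (N : ℤ), Real.exp (-s * (2 * Real.pi * (j : ℝ) / (2 * N + 1)) ^ 2) := by
  set L : ℝ := 2 * N + 1 with hL
  have hLpos : 0 < L := by rw [hL]; positivity
  have hpi := Real.pi_pos
  rw [even_sum (fun j : ℤ => Real.exp (-s * (2 * Real.pi * (j : ℝ) / L) ^ 2))
    (fun j => by push_cast; congr 1; ring) N]
  set f : ℝ → ℝ := fun x => Real.exp (-s * (2 * Real.pi * x / L) ^ 2) with hf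
  have hanti : AntitoneOn f (Set.Icc (0 : ℝ) (0 + ((N + 1 : ℕ) : ℝ))) := by
    intro x hx y hy hxy
    simp only [hf]
    apply Real.exp_le_exp.mpr
    have h1 : (2 * Real.pi * x / L) ^ 2 ≤ (2 * Real.pi * y / L) ^ 2 := by
      apply pow_le_pow_left₀
      · have := hx.1; positivity
      · apply div_le_div_of_nonneg_right _ hLpos.le
        have : 2 * Real.pi * x ≤ 2 * Real.pi * y := by
          apply mul_le_mul_of_nonneg_left hxy; positivity
        exact this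
    nlinarith
  have h1 := AntitoneOn.integral_le_sum hanti
  have h2 : ∑ i ∈ Finset.range (N + 1), f (0 + (i : ℝ))
      = ∑ i ∈ Finset.range (N + 1), Real.exp (-s * (2 * Real.pi * (((i : ℕ) : ℤ) : ℝ) / L) ^ 2) := by
    refine Finset.sum_congr rfl fun i _ => ?_
    simp [hf]
  rw [h2] at h1
  have h3 : ∫ x in (0 : ℝ)..(L / 2), f x ≤ ∫ x in (0 : ℝ)..(0 + ((N + 1 : ℕ) : ℝ)), f x := by
    apply intervalIntegral.integral_mono_interval le_rfl (by positivity)
    · rw [hL]; push_cast; linarith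
    · exact Filter.Eventually.of_forall fun x => (Real.exp_pos _).le
    · apply Continuous.intervalIntegrable
      simp only [hf]; fun_prop
  have h4 : ∫ x in (0 : ℝ)..(L / 2), f x = (L / (2 * Real.pi)) * ∫ t in (0 : ℝ)..Real.pi, Real.exp (-s * t ^ 2) := by
    have h5 := intervalIntegral.integral_comp_mul_right (a := 0) (b := L / 2)
      (fun t => Real.exp (-s * t ^ 2)) (c := 2 * Real.pi / L) (by positivity)
    have h6 : (fun x => Real.exp (-s * (x * (2 * Real.pi / L)) ^ 2)) = f := by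
      ext x
      simp only [hf]
      congr 2
      ring
    rw [h6] at h5
    rw [h5]
    have h7 : L / 2 * (2 * Real.pi / L) = Real.pi := by field_simp
    rw [h7, zero_mul, smul_eq_mul]
    congr 1
    field_simp
  have h8 : L * gaussI s = 2 * ((L / (2 * Real.pi)) * ∫ t in (0 : ℝ)..Real.pi, Real.exp (-s * t ^ 2)) := by
    unfold gaussI
    field_simp
  have h9 : Real.exp (-s * (2 * Real.pi * ((0 : ℤ) : ℝ) / L) ^ 2) = 1 := by simp
  rw [h8, ← h4]
  simp only [h9]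
  linarith

/-- geometric lower bound for the Bose factor -/
lemma bose_lower {u : ℝ} (hu : 0 < u) (M : ℕ) :
    ∑ n ∈ Finset.range M, Real.exp (-((n : ℝ) + 1) * u) ≤ 1 / (Real.exp u - 1) := by
  have hq0 : 0 < Real.exp (-u) := Real.exp_pos _
  have hq1 : Real.exp (-u) < 1 := by rw [Real.exp_lt_one_iff]; linarith
  have h1 : ∀ n ∈ Finset.range M, Real.exp (-((n : ℝ) + 1) * u) = Real.exp (-u) * Real.exp (-u) ^ n := by
    intro n _
    rw [← Real.exp_nat_mul, ← Real.exp_add]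
    congr 1; ring
  rw [Finset.sum_congr rfl h1, ← Finset.mul_sum]
  have h2 : ∑ n ∈ Finset.range M, Real.exp (-u) ^ n ≤ (1 - Real.exp (-u))⁻¹ := by
    rw [← tsum_geometric_of_lt_one hq0.le hq1]
    exact (summable_geometric_of_lt_one hq0.le hq1).sum_le_tsum _ (fun n _ => by positivity)
  have h3 : 1 / (Real.exp u - 1) = Real.exp (-u) * (1 - Real.exp (-u))⁻¹ := by
    have h4 := exp_sub_one_pos hu
    have h5 : 0 < 1 - Real.exp (-u) := by linarith
    rw [Real.exp_neg] at *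
    field_simp
  rw [h3]
  exact mul_le_mul_of_nonneg_left h2 hq0.le

lemma thetaK_nonneg (N : ℕ) (k : Fin 3 → ℤ) : 0 ≤ thetaK N k :=
  Finset.sum_nonneg fun _ _ => sq_nonneg _

/-- factorised Gaussian momentum sum -/
lemma box_gauss {s : ℝ} (hs : 0 ≤ s) (N : ℕ) :
    ((2 * N + 1 : ℝ) * gaussI s - 1) ^ 3 ≤ ∑ k : box N, Real.exp (-s * thetaK N k) := by
  have h1 : ∀ k : box N, Real.exp (-s * thetaK N k)
      = ∏ i, Real.exp (-s * (2 * Real.pi * ((k : Fin 3 → ℤ) i : ℝ) / (2 * N + 1)) ^ 2) := by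
    intro k
    rw [← Real.exp_sum]
    unfold thetaK
    rw [Finset.mul_sum]
  rw [Finset.sum_congr rfl fun k _ => h1 k]
  rw [box_sum_prod_real (fun _ j => Real.exp (-s * (2 * Real.pi * (j : ℝ) / (2 * N + 1)) ^ 2))]
  rw [Finset.prod_const, Finset.card_univ, Fintype.card_fin]
  exact (Odd.pow_le_pow (n := 3) (by decide)).mpr (gauss_sum_lower hs N)

/-- total momentum sum lower bound -/
lemma box_bose_lower {β κ h : ℝ} (hβ : 0 < β) (hκ : 0 ≤ κ) (hh : 0 < h) (N M : ℕ) :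
    ∑ n ∈ Finset.range M, Real.exp (-((n : ℝ) + 1) * (β * h)) *
        ((2 * N + 1 : ℝ) * gaussI (((n : ℝ) + 1) * (β * κ)) - 1) ^ 3
      ≤ ∑ k : box N, 1 / (Real.exp (β * (thetaK N k * κ + h)) - 1) := by
  have h1 : ∑ k : box N, ∑ n ∈ Finset.range M, Real.exp (-((n : ℝ) + 1) * (β * (thetaK N k * κ + h)))
      ≤ ∑ k : box N, 1 / (Real.exp (β * (thetaK N k * κ + h)) - 1) := by
    refine Finset.sum_le_sum fun k _ => bose_lower ?_ M
    have := thetaK_nonneg N k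
    positivity
  refine le_trans ?_ h1
  rw [Finset.sum_comm]
  refine Finset.sum_le_sum fun n _ => ?_
  have h2 : ∀ k : box N, Real.exp (-((n : ℝ) + 1) * (β * (thetaK N k * κ + h)))
      = Real.exp (-((n : ℝ) + 1) * (β * h)) * Real.exp (-(((n : ℝ) + 1) * (β * κ)) * thetaK N k) := by
    intro k
    rw [← Real.exp_add]; congr 1; ring
  rw [Finset.sum_congr rfl fun k _ => h2 k, ← Finset.mul_sum]
  exact mul_le_mul_of_nonneg_left (box_gauss (by positivity) N) (Real.exp_pos _).le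

/-- monotonicity of the effective stiffness -/
lemma kappa_le {a m m₀ : ℝ} (ha : 0 ≤ a) (hm0 : 0 < m₀) (hmm : m₀ ≤ m) :
    a / 2 * (a - m) / m ≤ a / 2 * (a - m₀) / m₀ := by
  have hmpos : 0 < m := lt_of_lt_of_le hm0 hmm
  have e1 : a / 2 * (a - m) / m = a / 2 * (a * (1 / m) - 1) := by field_simp
  have e2 : a / 2 * (a - m₀) / m₀ = a / 2 * (a * (1 / m₀) - 1) := by field_simp
  rw [e1, e2]
  have h1 : 1 / m ≤ 1 / m₀ := one_div_le_one_div_of_le hm0 hmm
  have h2 : a * (1 / m) ≤ a * (1 / m₀) := mul_le_mul_of_nonneg_left h1 ha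
  apply mul_le_mul_of_nonneg_left _ (by linarith)
  linarith

lemma bose_compare {β h a b : ℝ} (hβ : 0 < β) (hh : 0 < h) (ha : 0 ≤ a) (hab : a ≤ b) (N : ℕ)
    (k : Fin 3 → ℤ) : 1 / (Real.exp (β * (thetaK N k * b + h)) - 1)
      ≤ 1 / (Real.exp (β * (thetaK N k * a + h)) - 1) := by
  have ht := thetaK_nonneg N k
  have hta : 0 ≤ thetaK N k * a := mul_nonneg ht ha
  have hu : 0 < β * (thetaK N k * a + h) := mul_pos hβ (by linarith)
  apply one_div_le_one_div_of_le (exp_sub_one_pos hu)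
  apply sub_le_sub_right
  apply Real.exp_le_exp.mpr
  apply mul_le_mul_of_nonneg_left _ hβ.le
  have := mul_le_mul_of_nonneg_left hab ht
  linarith

lemma bose_nonneg {β h a : ℝ} (hβ : 0 < β) (hh : 0 < h) (ha : 0 ≤ a) (N : ℕ)
    (k : Fin 3 → ℤ) : 0 ≤ 1 / (Real.exp (β * (thetaK N k * a + h)) - 1) := by
  have ht := thetaK_nonneg N k
  have hta : 0 ≤ thetaK N k * a := mul_nonneg ht ha
  have hu : 0 < β * (thetaK N k * a + h) := mul_pos hβ (by linarith)
  have := exp_sub_one_pos hu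
  exact (one_div_pos.mpr this).le

lemma rescale_sum {L m₀ : ℝ} (hL : 0 < L) (M : ℕ) (w g : ℕ → ℝ) :
    L ^ 3 * (m₀ * ∑ n ∈ Finset.range M, w n * (g n - 1 / L) ^ 3)
      = m₀ * ∑ n ∈ Finset.range M, w n * (L * g n - 1) ^ 3 := by
  rw [mul_left_comm, Finset.mul_sum]
  congr 1
  refine Finset.sum_congr rfl fun n _ => ?_
  rw [mul_left_comm, ← mul_pow, mul_sub, mul_one_div_cancel hL.ne']

variable {d : ℕ}

/-- The finite volume inequality on the box, first form. -/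
lemma box_ineq {β h m : ℝ} (hβ : 0 < β) (hh : 0 < h) (hmpos : 0 < m)
    (hmd : m ≤ d / 2) (N : ℕ)
    (hm : gE (gibbsK d (nn N) β h) (magG d)
      = Fintype.card (box N) * gE (gibbsK d (nn N) β h) 1 * m) :
    m * ∑ k : box N, 1 / (Real.exp (β * (thetaK N k * ((d : ℝ) / 2 * (d - m) / m) + h)) - 1)
      ≤ (2 * N + 1 : ℝ) ^ 3 * ((d / 2 : ℝ) * (d / 2 - m)) := by
  have hd0 : (0 : ℝ) ≤ d := Nat.cast_nonneg d
  have hdm : 0 ≤ (d : ℝ) - m := by linarith
  have hκ : 0 ≤ (d : ℝ) / 2 * (d - m) / m :=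
    div_nonneg (mul_nonneg (by linarith) hdm) hmpos.le
  have hrew : ∀ k : Fin 3 → ℤ, β * (thetaK N k * (d / 2 : ℝ) * (d - m) / m + h)
      = β * (thetaK N k * ((d : ℝ) / 2 * (d - m) / m) + h) := by
    intro k; ring
  have h1 := finite_volume (d := d) (adj := nn N) (κ := box N) nn_ne nn_symm hβ hmpos hm
    (fun k x => chr N k x) (fun k x => chr_mul_star N k x) (fun x y => chr_orth N x y)
    (fun k => thetaK N k) (fun k x => theta_bound N k x)
    (fun k => by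
      rw [hrew]
      have := mul_nonneg (thetaK_nonneg N k) hκ
      exact mul_pos hβ (by linarith))
  simp only [hrew] at h1
  rw [card_box] at h1
  push_cast at h1
  exact h1

/-- The finite volume inequality on the box. -/
theorem box_final {β h m m₀ : ℝ} (hβ : 0 < β) (hh : 0 < h) (hm0 : 0 < m₀) (hmm : m₀ ≤ m)
    (hmd : m ≤ d / 2) (N M : ℕ)
    (hm : gE (gibbsK d (nn N) β h) (magG d)
      = Fintype.card (box N) * gE (gibbsK d (nn N) β h) 1 * m) :
    m₀ * ∑ n ∈ Finset.range M, Real.exp (-((n : ℝ) + 1) * (β * h)) *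
        (gaussI (((n : ℝ) + 1) * (β * ((d : ℝ) / 2 * (d - m₀) / m₀))) - 1 / (2 * N + 1)) ^ 3
      ≤ (d / 2 : ℝ) * (d / 2 - m) := by
  have hmpos : 0 < m := lt_of_lt_of_le hm0 hmm
  have hd0 : (0 : ℝ) ≤ d := Nat.cast_nonneg d
  have hdm : 0 ≤ (d : ℝ) - m := by linarith
  have hdm0 : 0 ≤ (d : ℝ) - m₀ := by linarith
  have hL : (0 : ℝ) < 2 * N + 1 := by positivity
  have h1 := box_ineq hβ hh hmpos hmd N hm
  set κ₀ : ℝ := (d : ℝ) / 2 * (d - m₀) / m₀ with hκ₀
  have hκnn : 0 ≤ (d : ℝ) / 2 * (d - m) / m :=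
    div_nonneg (mul_nonneg (by linarith) hdm) hmpos.le
  have hκ₀nn : 0 ≤ κ₀ := div_nonneg (mul_nonneg (by linarith) hdm0) hm0.le
  have hκle : (d : ℝ) / 2 * (d - m) / m ≤ κ₀ := kappa_le hd0 hm0 hmm
  have h2 : ∑ k : box N, 1 / (Real.exp (β * (thetaK N k * κ₀ + h)) - 1)
      ≤ ∑ k : box N, 1 / (Real.exp (β * (thetaK N k * ((d : ℝ) / 2 * (d - m) / m) + h)) - 1) :=
    Finset.sum_le_sum fun k _ => bose_compare hβ hh hκnn hκle N k
  have h3 := box_bose_lower hβ hκ₀nn hh N M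
  have h4 : 0 ≤ ∑ k : box N,
      1 / (Real.exp (β * (thetaK N k * ((d : ℝ) / 2 * (d - m) / m) + h)) - 1) :=
    Finset.sum_nonneg fun k _ => bose_nonneg hβ hh hκnn N k
  have h5 : m₀ * ∑ n ∈ Finset.range M, Real.exp (-((n : ℝ) + 1) * (β * h)) *
        ((2 * N + 1 : ℝ) * gaussI (((n : ℝ) + 1) * (β * κ₀)) - 1) ^ 3
      ≤ (2 * N + 1 : ℝ) ^ 3 * ((d / 2 : ℝ) * (d / 2 - m)) :=
    ((mul_le_mul_of_nonneg_left (h3.trans h2) hm0.le).trans
      (mul_le_mul_of_nonneg_right hmm h4)).trans h1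
  rw [← rescale_sum hL M (fun n => Real.exp (-((n : ℝ) + 1) * (β * h)))
    (fun n => gaussI (((n : ℝ) + 1) * (β * κ₀)))] at h5
  exact le_of_mul_le_mul_left h5 (pow_pos hL 3)

end Vale.Agent.P361
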