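import Vale.Agent.P361.Scalar

/-!
# Finite-dimensional Gibbs functionals
-/

namespace Vale.Agent.P361

open Matrix

variable {n : Type*} [Fintype n] [DecidableEq n]

/-- unnormalised Gibbs functional `A ↦ Re Tr (e^K A)` -/
noncomputable def gE (K A : Matrix n n ℂ) : ℝ := (Matrix.trace (NormedSpace.exp K * A)).re

lemma exists_diag {K : Matrix n n ℂ} (hK : K.IsHermitian) :
    ∃ (U : Matrix n n ℂ) (e : n → ℝ), U * Uᴴ = 1 ∧ Uᴴ * U = 1 ∧
      K = U * diagonal (fun i => (e i : ℂ)) * Uᴴ ∧
      NormedSpace.exp K = U * diagonal (fun i => ((Real.exp (e i) : ℝ) : ℂ)) * Uᴴ := by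
  have hsp := hK.spectral_theorem
  rw [Unitary.conjStarAlgAut_apply] at hsp
  set V := hK.eigenvectorUnitary with hV
  have h1 : (V : Matrix n n ℂ) * (V : Matrix n n ℂ)ᴴ = 1 := by
    have := Unitary.mul_star_self_of_mem V.2
    simpa [Matrix.star_eq_conjTranspose] using this
  have h2 : (V : Matrix n n ℂ)ᴴ * (V : Matrix n n ℂ) = 1 := by
    have := Unitary.star_mul_self_of_mem V.2
    simpa [Matrix.star_eq_conjTranspose] using this
  refine ⟨V, hK.eigenvalues, h1, h2, ?_, ?_⟩
  · simpa [Matrix.star_eq_conjTranspose, Function.comp_def] using hsp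
  · have hinv : (V : Matrix n n ℂ)⁻¹ = (V : Matrix n n ℂ)ᴴ := Matrix.inv_eq_right_inv h1
    have hunit : IsUnit (V : Matrix n n ℂ) := by
      rw [Matrix.isUnit_iff_isUnit_det]
      exact Matrix.isUnit_det_of_right_inverse h1
    have hK' : K = (V : Matrix n n ℂ) * diagonal (fun i => (hK.eigenvalues i : ℂ)) *
        (V : Matrix n n ℂ)⁻¹ := by
      rw [hinv]
      simpa [Matrix.star_eq_conjTranspose, Function.comp_def] using hsp
    have : NormedSpace.exp K = (V : Matrix n n ℂ) *
        NormedSpace.exp (diagonal (fun i => (hK.eigenvalues i : ℂ))) * (V : Matrix n n ℂ)⁻¹ := by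
      conv_lhs => rw [hK']
      exact Matrix.exp_conj _ _ hunit
    rw [this, hinv, Matrix.exp_diagonal]
    congr 2
    ext i j
    by_cases hij : i = j
    · subst hij
      simp [Pi.exp_def, Complex.exp_eq_exp_ℂ]
    · simp [hij]

end Vale.Agent.P361
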