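import Vale.Agent.P361.Gibbs

/-!
# The spectral inequality for Gibbs functionals
-/

namespace Vale.Agent.P361

open Matrix

variable {n : Type*} [Fintype n] [DecidableEq n]

lemma gE_add (K A B : Matrix n n ℂ) : gE K (A + B) = gE K A + gE K B := by
  simp [gE, Matrix.mul_add]

lemma gE_sub (K A B : Matrix n n ℂ) : gE K (A - B) = gE K A - gE K B := by
  simp [gE, Matrix.mul_sub]

lemma gE_smul (K A : Matrix n n ℂ) (c : ℝ) : gE K ((c : ℂ) • A) = c * gE K A := by
  simp [gE]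

lemma gE_neg (K A : Matrix n n ℂ) : gE K (-A) = -gE K A := by
  simp [gE]

lemma gE_zero (K : Matrix n n ℂ) : gE K 0 = 0 := by simp [gE]

lemma gE_sum {ι : Type*} (s : Finset ι) (K : Matrix n n ℂ) (f : ι → Matrix n n ℂ) :
    gE K (∑ i ∈ s, f i) = ∑ i ∈ s, gE K (f i) := by
  simp [gE, Finset.mul_sum, Matrix.trace_sum]

/-- `Tr (D B Bᴴ)` for a diagonal `D` -/
lemma trace_diag_mul_conj (d : n → ℝ) (B : Matrix n n ℂ) :
    (Matrix.trace (diagonal (fun i => ((d i : ℝ) : ℂ)) * (B * Bᴴ))).re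
      = ∑ i, ∑ j, d i * Complex.normSq (B i j) := by
  rw [Matrix.trace, Complex.re_sum]
  refine Finset.sum_congr rfl fun i _ => ?_
  rw [Matrix.diag_apply, Matrix.diagonal_mul, Matrix.mul_apply, Finset.mul_sum, Complex.re_sum]
  refine Finset.sum_congr rfl fun j _ => ?_
  rw [Matrix.conjTranspose_apply, Complex.star_def, Complex.mul_conj]
  rw [← Complex.ofReal_mul, Complex.ofReal_re]

lemma trace_diag_conj_mul (d : n → ℝ) (B : Matrix n n ℂ) :
    (Matrix.trace (diagonal (fun i => ((d i : ℝ) : ℂ)) * (Bᴴ * B))).re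
      = ∑ i, ∑ j, d j * Complex.normSq (B i j) := by
  have := trace_diag_mul_conj d Bᴴ
  rw [Matrix.conjTranspose_conjTranspose] at this
  rw [this, Finset.sum_comm]
  refine Finset.sum_congr rfl fun i _ => Finset.sum_congr rfl fun j _ => ?_
  rw [Matrix.conjTranspose_apply, Complex.star_def, Complex.normSq_conj]

/-- `Tr (D (ΛB - BΛ) Bᴴ)` -/
lemma trace_diag_comm1 (d e : n → ℝ) (B : Matrix n n ℂ) :
    (Matrix.trace (diagonal (fun i => ((d i : ℝ) : ℂ)) *
      ((diagonal (fun i => ((e i : ℝ) : ℂ)) * B - B * diagonal (fun i => ((e i : ℝ) : ℂ))) * Bᴴ))).re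
      = ∑ i, ∑ j, d i * (e i - e j) * Complex.normSq (B i j) := by
  rw [Matrix.trace, Complex.re_sum]
  refine Finset.sum_congr rfl fun i _ => ?_
  rw [Matrix.diag_apply, Matrix.diagonal_mul, Matrix.mul_apply, Finset.mul_sum, Complex.re_sum]
  refine Finset.sum_congr rfl fun j _ => ?_
  rw [Matrix.conjTranspose_apply, Complex.star_def, Matrix.sub_apply, Matrix.diagonal_mul,
    Matrix.mul_diagonal]
  have : ((d i : ℝ) : ℂ) * (((e i : ℂ) * B i j - B i j * (e j : ℂ)) * (starRingEnd ℂ) (B i j))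
      = ((d i * (e i - e j) * Complex.normSq (B i j) : ℝ) : ℂ) := by
    push_cast
    rw [← Complex.mul_conj]
    ring
  rw [this, Complex.ofReal_re]

/-- `Tr (D Bᴴ (ΛB - BΛ))` -/
lemma trace_diag_comm2 (d e : n → ℝ) (B : Matrix n n ℂ) :
    (Matrix.trace (diagonal (fun i => ((d i : ℝ) : ℂ)) *
      (Bᴴ * (diagonal (fun i => ((e i : ℝ) : ℂ)) * B - B * diagonal (fun i => ((e i : ℝ) : ℂ)))))).re
      = ∑ i, ∑ j, d j * (e i - e j) * Complex.normSq (B i j) := by
  rw [Matrix.trace, Complex.re_sum, Finset.sum_comm]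
  refine Finset.sum_congr rfl fun j _ => ?_
  rw [Matrix.diag_apply, Matrix.diagonal_mul, Matrix.mul_apply, Finset.mul_sum, Complex.re_sum]
  refine Finset.sum_congr rfl fun i _ => ?_
  rw [Matrix.conjTranspose_apply, Complex.star_def, Matrix.sub_apply, Matrix.diagonal_mul,
    Matrix.mul_diagonal]
  have : ((d j : ℝ) : ℂ) * ((starRingEnd ℂ) (B i j) * ((e i : ℂ) * B i j - B i j * (e j : ℂ)))
      = ((d j * (e i - e j) * Complex.normSq (B i j) : ℝ) : ℂ) := by
    push_cast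
    rw [← Complex.mul_conj]
    ring
  rw [this, Complex.ofReal_re]

/-- The basic spectral inequality. -/
theorem spectral_ineq {K : Matrix n n ℂ} (hK : K.IsHermitian) (A : Matrix n n ℂ) {u₀ : ℝ}
    (hu : 0 < u₀) :
    interC u₀ * gE K (A * Aᴴ - Aᴴ * A)
      - slopeC u₀ * gE K ((K * A - A * K) * Aᴴ - Aᴴ * (K * A - A * K))
      ≤ gE K (Aᴴ * A) := by
  obtain ⟨U, e, hU1, hU2, hKd, hexp⟩ := exists_diag hK
  set B : Matrix n n ℂ := Uᴴ * A * U with hB
  have hBH : Bᴴ = Uᴴ * Aᴴ * U := by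
    rw [hB]; simp [Matrix.conjTranspose_mul, Matrix.mul_assoc]
  -- trace transport
  have tr : ∀ X : Matrix n n ℂ, gE K X =
      (Matrix.trace (diagonal (fun i => ((Real.exp (e i) : ℝ) : ℂ)) * (Uᴴ * X * U))).re := by
    intro X
    unfold gE
    rw [hexp]
    congr 1
    rw [Matrix.mul_assoc, Matrix.mul_assoc, Matrix.trace_mul_comm]
    simp [Matrix.mul_assoc]
  have conj_mul : ∀ X Y : Matrix n n ℂ, Uᴴ * (X * Y) * U = (Uᴴ * X * U) * (Uᴴ * Y * U) := by
    intro X Y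
    calc Uᴴ * (X * Y) * U = Uᴴ * X * (1 * (Y * U)) := by simp [Matrix.mul_assoc]
      _ = Uᴴ * X * ((U * Uᴴ) * (Y * U)) := by rw [hU1]
      _ = _ := by simp [Matrix.mul_assoc]
  have conjK : Uᴴ * K * U = diagonal (fun i => ((e i : ℝ) : ℂ)) := by
    rw [hKd]
    calc Uᴴ * (U * diagonal (fun i => (e i : ℂ)) * Uᴴ) * U
        = (Uᴴ * U) * diagonal (fun i => (e i : ℂ)) * (Uᴴ * U) := by simp [Matrix.mul_assoc]
      _ = _ := by rw [hU2]; simp
  have e1 : gE K (Aᴴ * A) = ∑ i, ∑ j, Real.exp (e j) * Complex.normSq (B i j) := by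
    rw [tr, conj_mul, ← hB, ← hBH, trace_diag_conj_mul]
  have e2 : gE K (A * Aᴴ) = ∑ i, ∑ j, Real.exp (e i) * Complex.normSq (B i j) := by
    rw [tr, conj_mul, ← hB, ← hBH, trace_diag_mul_conj]
  have conjC : Uᴴ * (K * A - A * K) * U = diagonal (fun i => ((e i : ℝ) : ℂ)) * B
      - B * diagonal (fun i => ((e i : ℝ) : ℂ)) := by
    rw [Matrix.mul_sub, Matrix.sub_mul, conj_mul, conj_mul, conjK, ← hB]
  have e3 : gE K ((K * A - A * K) * Aᴴ) =
      ∑ i, ∑ j, Real.exp (e i) * (e i - e j) * Complex.normSq (B i j) := by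
    rw [tr, conj_mul, ← hBH, conjC, trace_diag_comm1]
  have e4 : gE K (Aᴴ * (K * A - A * K)) =
      ∑ i, ∑ j, Real.exp (e j) * (e i - e j) * Complex.normSq (B i j) := by
    rw [tr, conj_mul, ← hBH, conjC, trace_diag_comm2]
  rw [gE_sub, gE_sub, e1, e2, e3, e4]
  rw [← Finset.sum_sub_distrib, ← Finset.sum_sub_distrib, Finset.mul_sum, Finset.mul_sum,
    ← Finset.sum_sub_distrib]
  refine Finset.sum_le_sum fun i _ => ?_
  rw [← Finset.sum_sub_distrib, ← Finset.sum_sub_distrib, Finset.mul_sum, Finset.mul_sum,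
    ← Finset.sum_sub_distrib]
  refine Finset.sum_le_sum fun j _ => ?_
  have hN : 0 ≤ Complex.normSq (B i j) := Complex.normSq_nonneg _
  have hexpj : 0 < Real.exp (e j) := Real.exp_pos _
  have ht := tangent_ineq hu (e i - e j)
  have hei : Real.exp (e i) = Real.exp (e j) * Real.exp (e i - e j) := by
    rw [← Real.exp_add]; congr 1; ring
  rw [hei]
  have : interC u₀ * (Real.exp (e j) * Real.exp (e i - e j) * Complex.normSq (B i j)
        - Real.exp (e j) * Complex.normSq (B i j))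
      - slopeC u₀ * (Real.exp (e j) * Real.exp (e i - e j) * (e i - e j) * Complex.normSq (B i j)
        - Real.exp (e j) * (e i - e j) * Complex.normSq (B i j))
      = ((Real.exp (e i - e j) - 1) * (interC u₀ - slopeC u₀ * (e i - e j)))
        * (Real.exp (e j) * Complex.normSq (B i j)) := by ring
  rw [this]
  calc _ ≤ 1 * (Real.exp (e j) * Complex.normSq (B i j)) :=
        mul_le_mul_of_nonneg_right ht (by positivity)
    _ = _ := one_mul _

/-- `e^K` is positive: `gE K (Aᴴ A) ≥ 0` -/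
lemma gE_nonneg {K : Matrix n n ℂ} (hK : K.IsHermitian) (A : Matrix n n ℂ) :
    0 ≤ gE K (Aᴴ * A) := by
  obtain ⟨U, e, hU1, hU2, hKd, hexp⟩ := exists_diag hK
  set B : Matrix n n ℂ := Uᴴ * A * U with hB
  have hBH : Bᴴ = Uᴴ * Aᴴ * U := by
    rw [hB]; simp [Matrix.conjTranspose_mul, Matrix.mul_assoc]
  have tr : ∀ X : Matrix n n ℂ, gE K X =
      (Matrix.trace (diagonal (fun i => ((Real.exp (e i) : ℝ) : ℂ)) * (Uᴴ * X * U))).re := by
    intro X
    unfold gE
    rw [hexp]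
    congr 1
    rw [Matrix.mul_assoc, Matrix.mul_assoc, Matrix.trace_mul_comm]
    simp [Matrix.mul_assoc]
  have conj_mul : ∀ X Y : Matrix n n ℂ, Uᴴ * (X * Y) * U = (Uᴴ * X * U) * (Uᴴ * Y * U) := by
    intro X Y
    calc Uᴴ * (X * Y) * U = Uᴴ * X * (1 * (Y * U)) := by simp [Matrix.mul_assoc]
      _ = Uᴴ * X * ((U * Uᴴ) * (Y * U)) := by rw [hU1]
      _ = _ := by simp [Matrix.mul_assoc]
  rw [tr, conj_mul, ← hB, ← hBH, trace_diag_conj_mul]
  exact Finset.sum_nonneg fun i _ => Finset.sum_nonneg fun j _ =>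
    mul_nonneg (Real.exp_pos _).le (Complex.normSq_nonneg _)

end Vale.Agent.P361
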