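import Vale.Agent.P361.Gauss

/-!
# The finite-volume pressure as a function of the field
-/

namespace Vale.Agent.P361

open Matrix

variable {Λ : Type*} [Fintype Λ] [DecidableEq Λ] {d : ℕ}

lemma bond_comm_magG {x y : Λ} (h : x ≠ y) : Commute (bond d x y) (magG d) := by
  unfold magG
  -- only the sites x and y matter
  have hz : ∀ w : Λ, w ≠ x → w ≠ y → bond d x y * zS d w - zS d w * bond d x y = 0 := by
    intro w hx hy
    exact bond_comm_other hx hy _
  have h1 : zS d x * bond d x y - bond d x y * zS d x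
      = (1 / 2 : ℂ) • (pS d x * mS d y - mS d x * pS d y) := by
    rw [bond_eq, mul_add, add_mul]
    have e0 : zS d x * (zS d x * zS d y) - zS d x * zS d y * zS d x = 0 := by
      have : zS d y * zS d x = zS d x * zS d y := siteOp_comm h.symm _ _
      rw [mul_assoc (zS d x) (zS d y), this, sub_self]
    have e1 : zS d x * (pS d x * mS d y) - pS d x * mS d y * zS d x = pS d x * mS d y := by
      have : mS d y * zS d x = zS d x * mS d y := siteOp_comm h.symm _ _
      rw [mul_assoc (pS d x), this, ← mul_assoc, ← mul_assoc, ← sub_mul, zp_same]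
    have e2 : zS d x * (mS d x * pS d y) - mS d x * pS d y * zS d x = -(mS d x * pS d y) := by
      have : pS d y * zS d x = zS d x * pS d y := siteOp_comm h.symm _ _
      rw [mul_assoc (mS d x), this, ← mul_assoc, ← mul_assoc, ← sub_mul, zm_same, neg_mul]
    rw [mul_smul_comm, smul_mul_assoc, mul_add, add_mul]
    have : zS d x * (zS d x * zS d y) + (1 / 2 : ℂ) • (zS d x * (pS d x * mS d y)
        + zS d x * (mS d x * pS d y)) - (zS d x * zS d y * zS d x
        + (1 / 2 : ℂ) • (pS d x * mS d y * zS d x + mS d x * pS d y * zS d x))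
        = (zS d x * (zS d x * zS d y) - zS d x * zS d y * zS d x)
          + (1 / 2 : ℂ) • ((zS d x * (pS d x * mS d y) - pS d x * mS d y * zS d x)
          + (zS d x * (mS d x * pS d y) - mS d x * pS d y * zS d x)) := by
      simp only [smul_add, smul_sub]; abel
    rw [this, e0, e1, e2, zero_add, ← sub_eq_add_neg]
  have h2 : zS d y * bond d x y - bond d x y * zS d y
      = -((1 / 2 : ℂ) • (pS d x * mS d y - mS d x * pS d y)) := by
    rw [bond_eq, mul_add, add_mul]
    have e0 : zS d y * (zS d x * zS d y) - zS d x * zS d y * zS d y = 0 := by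
      have : zS d y * zS d x = zS d x * zS d y := siteOp_comm h.symm _ _
      rw [← mul_assoc, this, sub_self]
    have e1 : zS d y * (pS d x * mS d y) - pS d x * mS d y * zS d y = -(pS d x * mS d y) := by
      have : zS d y * pS d x = pS d x * zS d y := siteOp_comm h.symm _ _
      rw [← mul_assoc, this, mul_assoc, mul_assoc, ← mul_sub, zm_same, mul_neg]
    have e2 : zS d y * (mS d x * pS d y) - mS d x * pS d y * zS d y = mS d x * pS d y := by
      have : zS d y * mS d x = mS d x * zS d y := siteOp_comm h.symm _ _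
      rw [← mul_assoc, this, mul_assoc, mul_assoc, ← mul_sub, zp_same]
    rw [mul_smul_comm, smul_mul_assoc, mul_add, add_mul]
    have : zS d y * (zS d x * zS d y) + (1 / 2 : ℂ) • (zS d y * (pS d x * mS d y)
        + zS d y * (mS d x * pS d y)) - (zS d x * zS d y * zS d y
        + (1 / 2 : ℂ) • (pS d x * mS d y * zS d y + mS d x * pS d y * zS d y))
        = (zS d y * (zS d x * zS d y) - zS d x * zS d y * zS d y)
          + (1 / 2 : ℂ) • ((zS d y * (pS d x * mS d y) - pS d x * mS d y * zS d y)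
          + (zS d y * (mS d x * pS d y) - mS d x * pS d y * zS d y)) := by
      simp only [smul_add, smul_sub]; abel
    rw [this, e0, e1, e2, zero_add, ← smul_neg]
    congr 1; abel
  unfold Commute SemiconjBy
  rw [← sub_eq_zero, Finset.mul_sum, Finset.sum_mul, ← Finset.sum_sub_distrib]
  rw [← Finset.sum_subset (Finset.subset_univ ({x, y} : Finset Λ)), Finset.sum_pair h]
  · have e3 : bond d x y * zS d x - zS d x * bond d x y
        = -((1 / 2 : ℂ) • (pS d x * mS d y - mS d x * pS d y)) := by rw [← h1]; abel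
    have e4 : bond d x y * zS d y - zS d y * bond d x y
        = ((1 / 2 : ℂ) • (pS d x * mS d y - mS d x * pS d y)) := by
      rw [← neg_neg ((1 / 2 : ℂ) • (pS d x * mS d y - mS d x * pS d y)), ← h2]; abel
    rw [e3, e4]; abel
  · intro w _ hw
    simp only [Finset.mem_insert, Finset.mem_singleton, not_or] at hw
    exact hz w hw.1 hw.2

variable {adj : Λ → Λ → Prop} [DecidableRel adj]

lemma hamG_comm_magG (hadj : ∀ x y, adj x y → x ≠ y) : Commute (hamG d adj) (magG d) := by
  unfold hamG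
  apply Commute.neg_left
  apply Commute.smul_left
  refine Finset.sum_induction _ (fun X => Commute X (magG d)) (fun a b ha hb => ha.add_left hb)
    (Commute.zero_left _) (fun x _ => ?_)
  refine Finset.sum_induction _ (fun X => Commute X (magG d)) (fun a b ha hb => ha.add_left hb)
    (Commute.zero_left _) (fun y _ => ?_)
  split_ifs with hxy
  · exact bond_comm_magG (hadj x y hxy)
  · exact Commute.zero_left _

/-- total magnetisation of a configuration -/
noncomputable def mval (d : ℕ) (σ : Λ → Fin (d + 1)) : ℝ := ∑ x, zval d x σ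

lemma magG_eq_diagonal : (magG d : Matrix (Λ → Fin (d + 1)) _ ℂ)
    = diagonal (fun σ => ((mval d σ : ℝ) : ℂ)) := by
  unfold magG
  ext σ τ
  rw [Matrix.sum_apply]
  by_cases h : σ = τ
  · subst h
    rw [Matrix.diagonal_apply_eq]
    unfold mval
    push_cast
    refine Finset.sum_congr rfl fun x _ => ?_
    rw [zS_eq_diagonal, Matrix.diagonal_apply_eq]
  · rw [Matrix.diagonal_apply_ne _ h]
    refine Finset.sum_eq_zero fun x _ => ?_
    rw [zS_eq_diagonal, Matrix.diagonal_apply_ne _ h]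

omit [Fintype Λ] [DecidableEq Λ] in
lemma abs_zval_le (x : Λ) (σ : Λ → Fin (d + 1)) : |zval d x σ| ≤ d / 2 := by
  unfold zval
  have h3 : ((σ x : ℕ) : ℝ) ≤ d := by
    have := (σ x).2
    exact_mod_cast (by omega : (σ x : ℕ) ≤ d)
  have h4 : (0 : ℝ) ≤ ((σ x : ℕ) : ℝ) := by positivity
  rw [abs_le]; constructor <;> linarith

omit [DecidableEq Λ] in
lemma abs_mval_le (σ : Λ → Fin (d + 1)) : |mval d σ| ≤ Fintype.card Λ * (d / 2 : ℝ) := by
  unfold mval
  calc |∑ x, zval d x σ| ≤ ∑ x, |zval d x σ| := Finset.abs_sum_le_sum_abs _ _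
    _ ≤ ∑ _x : Λ, (d / 2 : ℝ) := Finset.sum_le_sum fun x _ => abs_zval_le x σ
    _ = _ := by rw [Finset.sum_const, Finset.card_univ, nsmul_eq_mul]

/-- diagonal weights of `e^{-βH}` -/
noncomputable def wt (d : ℕ) (adj : Λ → Λ → Prop) [DecidableRel adj] (β : ℝ)
    (σ : Λ → Fin (d + 1)) : ℝ := (NormedSpace.exp (gibbsK d adj β 0) σ σ).re

lemma gibbsK_split (β h : ℝ) : gibbsK d adj β h
    = gibbsK d adj β 0 + ((β * h : ℝ) : ℂ) • magG d := by
  rw [gibbsK_eq, gibbsK_eq]
  simp

lemma exp_gibbsK (hadj : ∀ x y, adj x y → x ≠ y) (β h : ℝ) :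
    NormedSpace.exp (gibbsK d adj β h) = NormedSpace.exp (gibbsK d adj β 0)
      * diagonal (fun σ => ((Real.exp (β * h * mval d σ) : ℝ) : ℂ)) := by
  have hcomm : Commute (gibbsK d adj β 0) (((β * h : ℝ) : ℂ) • magG d) := by
    apply Commute.smul_right
    unfold gibbsK
    apply Commute.smul_left
    simp only [Complex.ofReal_zero, zero_smul, sub_zero]
    exact hamG_comm_magG hadj
  rw [gibbsK_split, Matrix.exp_add_of_commute _ _ hcomm]
  congr 1
  rw [magG_eq_diagonal, ← Matrix.diagonal_smul, Matrix.exp_diagonal]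
  congr 1
  ext σ
  rw [Pi.exp_def]
  simp only [Pi.smul_apply, smul_eq_mul]
  rw [← Complex.exp_eq_exp_ℂ, ← Complex.ofReal_mul, ← Complex.ofReal_exp]

lemma gE_gibbs_diagonal (hadj : ∀ x y, adj x y → x ≠ y) (β h : ℝ)
    (v : (Λ → Fin (d + 1)) → ℝ) :
    gE (gibbsK d adj β h) (diagonal (fun σ => ((v σ : ℝ) : ℂ)))
      = ∑ σ, wt d adj β σ * Real.exp (β * h * mval d σ) * v σ := by
  unfold gE
  rw [exp_gibbsK hadj, Matrix.mul_assoc, Matrix.diagonal_mul_diagonal, Matrix.trace, Complex.re_sum]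
  refine Finset.sum_congr rfl fun σ _ => ?_
  rw [Matrix.diag_apply, Matrix.mul_diagonal, ← Complex.ofReal_mul, Complex.re_mul_ofReal]
  unfold wt
  ring

lemma wt_nonneg (hadj : ∀ x y, adj x y → x ≠ y) (β : ℝ) (σ : Λ → Fin (d + 1)) :
    0 ≤ wt d adj β σ := by
  have h1 := gE_diagonal_nonneg (gibbsK_hermitian (d := d) hadj β 0)
    (fun τ => if τ = σ then 1 else 0) (fun τ => by split_ifs <;> norm_num)
  rw [gE_gibbs_diagonal hadj] at h1
  simpa using h1

/-- partition function -/
noncomputable def Zf (d : ℕ) (adj : Λ → Λ → Prop) [DecidableRel adj] (β h : ℝ) : ℝ :=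
  gE (gibbsK d adj β h) 1

lemma Zf_eq (hadj : ∀ x y, adj x y → x ≠ y) (β h : ℝ) :
    Zf d adj β h = ∑ σ, wt d adj β σ * Real.exp (β * h * mval d σ) := by
  unfold Zf
  have := gE_gibbs_diagonal (d := d) hadj β h (fun _ => 1)
  simp only [Complex.ofReal_one, Matrix.diagonal_one, mul_one] at this
  exact this

lemma Zf_pos (hadj : ∀ x y, adj x y → x ≠ y) (β h : ℝ) : 0 < Zf d adj β h :=
  gE_one_pos (gibbsK_hermitian hadj β h)

/-- total thermal magnetisation -/
noncomputable def Mf (d : ℕ) (adj : Λ → Λ → Prop) [DecidableRel adj] (β h : ℝ) : ℝ :=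
  gE (gibbsK d adj β h) (magG d)

lemma Mf_eq (hadj : ∀ x y, adj x y → x ≠ y) (β h : ℝ) :
    Mf d adj β h = ∑ σ, wt d adj β σ * Real.exp (β * h * mval d σ) * mval d σ := by
  unfold Mf
  rw [magG_eq_diagonal, gE_gibbs_diagonal hadj]

/-- supporting lines of `log Z` (Jensen) -/
lemma log_Zf_support (hadj : ∀ x y, adj x y → x ≠ y) (β h h₁ : ℝ) :
    Real.log (Zf d adj β h₁) + β * (h - h₁) * (Mf d adj β h₁ / Zf d adj β h₁)
      ≤ Real.log (Zf d adj β h) := by
  have hZ1 := Zf_pos (d := d) hadj β h₁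
  have hZ := Zf_pos (d := d) hadj β h
  set μ := Mf d adj β h₁ / Zf d adj β h₁ with hμ
  have key : Zf d adj β h₁ * Real.exp (β * (h - h₁) * μ) ≤ Zf d adj β h := by
    have h1 : ∀ σ : Λ → Fin (d + 1), wt d adj β σ * Real.exp (β * h₁ * mval d σ)
        * (Real.exp (β * (h - h₁) * μ) * (1 + β * (h - h₁) * (mval d σ - μ)))
        ≤ wt d adj β σ * Real.exp (β * h * mval d σ) := by
      intro σ
      have e1 : Real.exp (β * h * mval d σ) = Real.exp (β * h₁ * mval d σ)
          * (Real.exp (β * (h - h₁) * μ) * Real.exp (β * (h - h₁) * (mval d σ - μ))) := by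
        rw [← Real.exp_add, ← Real.exp_add]; congr 1; ring
      rw [e1, ← mul_assoc (wt d adj β σ)]
      apply mul_le_mul_of_nonneg_left _ (mul_nonneg (wt_nonneg hadj β σ) (Real.exp_pos _).le)
      apply mul_le_mul_of_nonneg_left _ (Real.exp_pos _).le
      have := Real.add_one_le_exp (β * (h - h₁) * (mval d σ - μ))
      linarith
    have h2 := Finset.sum_le_sum fun σ (_ : σ ∈ Finset.univ) => h1 σ
    rw [← Zf_eq hadj β h] at h2
    refine le_trans (le_of_eq ?_) h2
    have h3 : ∀ σ : Λ → Fin (d + 1), wt d adj β σ * Real.exp (β * h₁ * mval d σ)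
        * (Real.exp (β * (h - h₁) * μ) * (1 + β * (h - h₁) * (mval d σ - μ)))
        = Real.exp (β * (h - h₁) * μ) * ((1 - β * (h - h₁) * μ)
          * (wt d adj β σ * Real.exp (β * h₁ * mval d σ))
          + β * (h - h₁) * (wt d adj β σ * Real.exp (β * h₁ * mval d σ) * mval d σ)) := by
      intro σ; ring
    rw [Finset.sum_congr rfl fun σ _ => h3 σ, ← Finset.mul_sum, Finset.sum_add_distrib,
      ← Finset.mul_sum, ← Finset.mul_sum, ← Zf_eq hadj, ← Mf_eq hadj]
    have h4 : Mf d adj β h₁ = μ * Zf d adj β h₁ := by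
      rw [hμ, div_mul_cancel₀ _ hZ1.ne']
    rw [h4]; ring
  have h5 := Real.log_le_log (by positivity) key
  rw [Real.log_mul hZ1.ne' (Real.exp_pos _).ne', Real.log_exp] at h5
  exact h5

lemma abs_Mf_le (hadj : ∀ x y, adj x y → x ≠ y) (β h : ℝ) :
    |Mf d adj β h / Zf d adj β h| ≤ Fintype.card Λ * (d / 2 : ℝ) := by
  have hZ := Zf_pos (d := d) hadj β h
  rw [abs_div, abs_of_pos hZ, div_le_iff₀ hZ, Mf_eq hadj]
  calc |∑ σ, wt d adj β σ * Real.exp (β * h * mval d σ) * mval d σ|
      ≤ ∑ σ, |wt d adj β σ * Real.exp (β * h * mval d σ) * mval d σ| :=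
        Finset.abs_sum_le_sum_abs _ _
    _ ≤ ∑ σ : Λ → Fin (d + 1), (Fintype.card Λ * (d / 2 : ℝ))
          * (wt d adj β σ * Real.exp (β * h * mval d σ)) := by
        refine Finset.sum_le_sum fun σ _ => ?_
        rw [abs_mul, abs_of_nonneg (mul_nonneg (wt_nonneg hadj β σ) (Real.exp_pos _).le), mul_comm]
        exact mul_le_mul_of_nonneg_right (abs_mval_le σ)
          (mul_nonneg (wt_nonneg hadj β σ) (Real.exp_pos _).le)
    _ = _ := by rw [← Finset.mul_sum, ← Zf_eq hadj]

end Vale.Agent.P361
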