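import Vale.Agent.P361.Defs

/-!
# Scalar inequality behind the spin-wave bound
-/

namespace Vale.Agent.P361

open Real

/-- the slope constant `c₂ = q / (q-1)^2`, `q = e^{u₀}` -/
noncomputable def slopeC (u₀ : ℝ) : ℝ := exp u₀ / (exp u₀ - 1) ^ 2

/-- the intercept constant `c₁ = 1/(q-1) + u₀ q/(q-1)^2` -/
noncomputable def interC (u₀ : ℝ) : ℝ := 1 / (exp u₀ - 1) + u₀ * slopeC u₀

lemma exp_sub_one_pos {u₀ : ℝ} (h : 0 < u₀) : 0 < exp u₀ - 1 := by
  have := Real.add_one_lt_exp h.ne'
  linarith

lemma slopeC_pos {u₀ : ℝ} (h : 0 < u₀) : 0 < slopeC u₀ := by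
  unfold slopeC
  have := exp_sub_one_pos h
  positivity

/-- tangent line inequality for `1/(e^u-1)` valid on the whole line in product form -/
lemma tangent_ineq {u₀ : ℝ} (h : 0 < u₀) (u : ℝ) :
    (exp u - 1) * (interC u₀ - slopeC u₀ * u) ≤ 1 := by
  have hq := exp_sub_one_pos h
  have hs := slopeC_pos h
  have hi : 0 < interC u₀ := by
    unfold interC; positivity
  rcases le_or_gt u 0 with hu | hu
  · have h1 : exp u - 1 ≤ 0 := by
      have := Real.exp_le_one_iff.mpr hu
      linarith
    have h2 : 0 ≤ interC u₀ - slopeC u₀ * u := by nlinarith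
    nlinarith
  · -- u > 0
    set t := u - u₀ with ht
    set q := exp u₀ with hqdef
    set w := exp t with hw
    have hwpos : 0 < w := exp_pos _
    have hqpos : 0 < q := exp_pos _
    have he : exp u = q * w := by
      rw [hqdef, hw, ← exp_add]; congr 1; rw [ht]; ring
    have htw : 1 - 1 / w ≤ t := by
      have := Real.add_one_le_exp (-t)
      rw [hw, one_div, ← Real.exp_neg]; linarith
    have hqw : 0 < q * w - 1 := by
      rw [← he]; exact exp_sub_one_pos hu
    have key : (q * w - 1) * ((q - 1) - q * t) ≤ (q - 1) ^ 2 := by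
      have h1 : (q * w - 1) * ((q - 1) - q * t) ≤ (q * w - 1) * ((q - 1) - q * (1 - 1 / w)) := by
        apply mul_le_mul_of_nonneg_left _ hqw.le
        nlinarith
      have h2 : (q * w - 1) * ((q - 1) - q * (1 - 1 / w)) = q ^ 2 - q * (w + 1 / w) + 1 := by
        field_simp
        ring
      have h3 : 2 ≤ w + 1 / w := by
        have : w + 1 / w - 2 = (w - 1) ^ 2 / w := by field_simp; ring
        have : 0 ≤ (w - 1) ^ 2 / w := by positivity
        linarith
      nlinarith
    have h4 : interC u₀ - slopeC u₀ * u = ((q - 1) - q * t) / (q - 1) ^ 2 := by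
      unfold interC slopeC
      rw [← hqdef, ht]
      field_simp
      ring
    rw [he, h4]
    rw [← mul_div_assoc, div_le_one (by positivity)]
    exact key

/-- the value of the tangent line at its base point -/
lemma interC_sub (u₀ : ℝ) : interC u₀ - slopeC u₀ * u₀ = 1 / (exp u₀ - 1) := by
  unfold interC; ring

end Vale.Agent.P361
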