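import Vale.Agent.P361.Gibbs2

/-!
# Site operators on a finite tensor product
-/

namespace Vale.Agent.P361

open Matrix

variable {Λ : Type*} [Fintype Λ] [DecidableEq Λ] {d : ℕ}

lemma siteOp_apply (x : Λ) (A : Matrix (Fin (d + 1)) (Fin (d + 1)) ℂ) (σ τ : Λ → Fin (d + 1)) :
    siteOp x A σ τ = if ∀ y, y ≠ x → σ y = τ y then A (σ x) (τ x) else 0 := rfl

lemma sum_offsite (x : Λ) (σ : Λ → Fin (d + 1)) (g : (Λ → Fin (d + 1)) → ℂ) :
    (∑ ρ : Λ → Fin (d + 1), if ∀ y, y ≠ x → σ y = ρ y then g ρ else 0)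
      = ∑ s : Fin (d + 1), g (Function.update σ x s) := by
  rw [← Finset.sum_filter]
  have himg : (Finset.univ.filter fun ρ : Λ → Fin (d + 1) => ∀ y, y ≠ x → σ y = ρ y)
      = Finset.univ.image (fun s => Function.update σ x s) := by
    ext ρ
    simp only [Finset.mem_filter, Finset.mem_univ, true_and, Finset.mem_image]
    constructor
    · intro h
      refine ⟨ρ x, ?_⟩
      ext y
      by_cases hy : y = x
      · subst hy; simp
      · simp [Function.update_of_ne hy, h y hy]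
    · rintro ⟨s, rfl⟩ y hy
      simp [Function.update_of_ne hy]
  rw [himg, Finset.sum_image]
  intro s _ t _ hst
  have := congrFun hst x
  simpa using this

lemma siteOp_mul_apply (x : Λ) (A : Matrix (Fin (d + 1)) (Fin (d + 1)) ℂ)
    (X : Matrix (Λ → Fin (d + 1)) (Λ → Fin (d + 1)) ℂ) (σ τ : Λ → Fin (d + 1)) :
    (siteOp x A * X) σ τ = ∑ s, A (σ x) s * X (Function.update σ x s) τ := by
  rw [Matrix.mul_apply]
  have : ∀ ρ : Λ → Fin (d + 1), siteOp x A σ ρ * X ρ τ
      = if ∀ y, y ≠ x → σ y = ρ y then A (σ x) (ρ x) * X ρ τ else 0 := by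
    intro ρ
    rw [siteOp_apply]
    split_ifs <;> simp
  rw [Finset.sum_congr rfl fun ρ _ => this ρ, sum_offsite x σ (fun ρ => A (σ x) (ρ x) * X ρ τ)]
  simp

lemma siteOp_mul_same (x : Λ) (A B : Matrix (Fin (d + 1)) (Fin (d + 1)) ℂ) :
    siteOp x A * siteOp x B = siteOp x (A * B) := by
  ext σ τ
  rw [siteOp_mul_apply]
  simp only [siteOp_apply]
  by_cases h : ∀ y, y ≠ x → σ y = τ y
  · rw [if_pos h, Matrix.mul_apply]
    refine Finset.sum_congr rfl fun s _ => ?_
    rw [if_pos]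
    · simp
    · intro y hy; rw [Function.update_of_ne hy]; exact h y hy
  · rw [if_neg h]
    refine Finset.sum_eq_zero fun s _ => ?_
    rw [if_neg]
    · simp
    · intro h'
      apply h
      intro y hy
      have := h' y hy
      rwa [Function.update_of_ne hy] at this

lemma siteOp_mul_ne {x y : Λ} (hxy : x ≠ y) (A B : Matrix (Fin (d + 1)) (Fin (d + 1)) ℂ)
    (σ τ : Λ → Fin (d + 1)) :
    (siteOp x A * siteOp y B) σ τ =
      if ∀ z, z ≠ x → z ≠ y → σ z = τ z then A (σ x) (τ x) * B (σ y) (τ y) else 0 := by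
  rw [siteOp_mul_apply]
  simp only [siteOp_apply]
  by_cases h : ∀ z, z ≠ x → z ≠ y → σ z = τ z
  · rw [if_pos h, Finset.sum_eq_single (τ x)]
    · rw [if_pos]
      · rw [Function.update_of_ne hxy.symm]
      · intro z hz
        by_cases hzx : z = x
        · subst hzx; simp
        · rw [Function.update_of_ne hzx]; exact h z hzx hz
    · intro s _ hs
      rw [if_neg]
      · simp
      · intro h'
        have := h' x hxy
        rw [Function.update_self] at this
        exact hs this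
    · simp
  · rw [if_neg h]
    refine Finset.sum_eq_zero fun s _ => ?_
    rw [if_neg]
    · simp
    · intro h'
      apply h
      intro z hzx hzy
      have := h' z hzy
      rwa [Function.update_of_ne hzx] at this

lemma siteOp_comm {x y : Λ} (hxy : x ≠ y) (A B : Matrix (Fin (d + 1)) (Fin (d + 1)) ℂ) :
    siteOp x A * siteOp y B = siteOp y B * siteOp x A := by
  ext σ τ
  rw [siteOp_mul_ne hxy, siteOp_mul_ne hxy.symm]
  have : (∀ z, z ≠ x → z ≠ y → σ z = τ z) ↔ (∀ z, z ≠ y → z ≠ x → σ z = τ z) :=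
    ⟨fun h z hy hx => h z hx hy, fun h z hx hy => h z hy hx⟩
  simp only [this]
  split_ifs
  · ring
  · rfl

lemma siteOp_add (x : Λ) (A B : Matrix (Fin (d + 1)) (Fin (d + 1)) ℂ) :
    siteOp x (A + B) = siteOp x A + siteOp x B := by
  ext σ τ
  simp only [siteOp_apply, Matrix.add_apply]
  split_ifs <;> simp

lemma siteOp_sub (x : Λ) (A B : Matrix (Fin (d + 1)) (Fin (d + 1)) ℂ) :
    siteOp x (A - B) = siteOp x A - siteOp x B := by
  ext σ τ
  simp only [siteOp_apply, Matrix.sub_apply]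
  split_ifs <;> simp

lemma siteOp_neg (x : Λ) (A : Matrix (Fin (d + 1)) (Fin (d + 1)) ℂ) :
    siteOp x (-A) = -siteOp x A := by
  ext σ τ
  simp only [siteOp_apply, Matrix.neg_apply]
  split_ifs <;> simp

lemma siteOp_smul (x : Λ) (c : ℂ) (A : Matrix (Fin (d + 1)) (Fin (d + 1)) ℂ) :
    siteOp x (c • A) = c • siteOp x A := by
  ext σ τ
  simp only [siteOp_apply, Matrix.smul_apply]
  split_ifs <;> simp

lemma siteOp_conjTranspose (x : Λ) (A : Matrix (Fin (d + 1)) (Fin (d + 1)) ℂ) :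
    (siteOp x A)ᴴ = siteOp x Aᴴ := by
  ext σ τ
  simp only [siteOp_apply, Matrix.conjTranspose_apply]
  have : (∀ y, y ≠ x → τ y = σ y) ↔ (∀ y, y ≠ x → σ y = τ y) :=
    ⟨fun h y hy => (h y hy).symm, fun h y hy => (h y hy).symm⟩
  simp only [this]
  split_ifs <;> simp

lemma siteOp_transpose (x : Λ) (A : Matrix (Fin (d + 1)) (Fin (d + 1)) ℂ) :
    (siteOp x A)ᵀ = siteOp x Aᵀ := by
  ext σ τ
  simp only [siteOp_apply, Matrix.transpose_apply]
  have : (∀ y, y ≠ x → τ y = σ y) ↔ (∀ y, y ≠ x → σ y = τ y) :=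
    ⟨fun h y hy => (h y hy).symm, fun h y hy => (h y hy).symm⟩
  simp only [this]

lemma siteOp_diagonal (x : Λ) (v : Fin (d + 1) → ℂ) :
    siteOp x (diagonal v) = diagonal (fun σ : Λ → Fin (d + 1) => v (σ x)) := by
  ext σ τ
  rw [siteOp_apply]
  by_cases h : σ = τ
  · subst h; simp
  · rw [Matrix.diagonal_apply_ne _ h]
    by_cases h' : ∀ y, y ≠ x → σ y = τ y
    · rw [if_pos h']
      rw [Matrix.diagonal_apply_ne]
      intro hx
      apply h
      ext y
      by_cases hy : y = x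
      · subst hy; exact congrArg _ hx
      · exact congrArg _ (h' y hy)
    · rw [if_neg h']

lemma siteOp_one (x : Λ) : siteOp x (1 : Matrix (Fin (d + 1)) (Fin (d + 1)) ℂ) = 1 := by
  rw [← Matrix.diagonal_one, siteOp_diagonal, Matrix.diagonal_one]

end Vale.Agent.P361
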