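import Vale.Agent.P361.Site

/-!
# Spin matrices of spin `S = d/2`
-/

namespace Vale.Agent.P361

open Matrix

variable (d : ℕ)

lemma raiseM_transpose : (raiseM d)ᵀ = (raiseM d)ᴴ := by
  ext i j
  simp only [raiseM, Matrix.transpose_apply, Matrix.conjTranspose_apply]
  split_ifs <;> simp

lemma raise_mul_lower : raiseM d * (raiseM d)ᴴ
    = diagonal (fun i : Fin (d + 1) => (((i : ℕ) + 1 : ℂ) * (d - (i : ℕ)))) := by
  ext i k
  rw [Matrix.mul_apply]
  simp only [raiseM, Matrix.conjTranspose_apply]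
  by_cases hid : (i : ℕ) = d
  · -- all terms vanish
    have h0 : ∀ j : Fin (d + 1), ¬ ((i : ℕ) + 1 = (j : ℕ)) := fun j hj => by
      have := j.2; omega
    rw [Finset.sum_eq_zero]
    · by_cases hik : i = k
      · subst hik; rw [Matrix.diagonal_apply_eq]; simp [hid]
      · rw [Matrix.diagonal_apply_ne _ hik]
    · intro j _
      rw [if_neg (h0 j)]; simp
  · have hlt : (i : ℕ) + 1 < d + 1 := by have := i.2; omega
    rw [Finset.sum_eq_single (⟨(i : ℕ) + 1, hlt⟩ : Fin (d + 1))]
    · simp only [if_true]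
      by_cases hik : i = k
      · subst hik
        rw [Matrix.diagonal_apply_eq]
        simp only [if_true]
        rw [Complex.star_def, Complex.conj_ofReal, ← Complex.ofReal_mul, Real.mul_self_sqrt]
        · push_cast; ring
        · have : ((i : ℕ) : ℝ) + 1 ≤ d := by exact_mod_cast (by omega : (i : ℕ) + 1 ≤ d)
          push_cast
          apply mul_nonneg <;> [positivity; linarith]
      · rw [Matrix.diagonal_apply_ne _ hik]
        rw [if_neg, star_zero, mul_zero]
        intro h; apply hik; ext; simp at h; omega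
    · intro j _ hj
      rw [if_neg]
      · simp
      · intro h; apply hj; ext; simp; omega
    · simp

lemma lower_mul_raise : (raiseM d)ᴴ * raiseM d
    = diagonal (fun i : Fin (d + 1) => (((i : ℕ) : ℂ) * (d + 1 - (i : ℕ)))) := by
  ext i k
  rw [Matrix.mul_apply]
  simp only [raiseM, Matrix.conjTranspose_apply]
  by_cases hi0 : (i : ℕ) = 0
  · rw [Finset.sum_eq_zero]
    · by_cases hik : i = k
      · subst hik; rw [Matrix.diagonal_apply_eq]; simp [hi0]
      · rw [Matrix.diagonal_apply_ne _ hik]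
    · intro j _
      rw [if_neg (by omega)]; simp
  · have hlt : (i : ℕ) - 1 < d + 1 := by have := i.2; omega
    rw [Finset.sum_eq_single (⟨(i : ℕ) - 1, hlt⟩ : Fin (d + 1))]
    · have h1 : ((⟨(i : ℕ) - 1, hlt⟩ : Fin (d + 1)) : ℕ) + 1 = (i : ℕ) := by simp; omega
      rw [if_pos h1]
      by_cases hik : i = k
      · subst hik
        rw [Matrix.diagonal_apply_eq, if_pos h1]
        rw [Complex.star_def, Complex.conj_ofReal, ← Complex.ofReal_mul, Real.mul_self_sqrt]
        · push_cast; ring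
        · have : ((i : ℕ) : ℝ) ≤ d := by
            have := i.2
            exact_mod_cast (by omega : (i : ℕ) ≤ d)
          apply mul_nonneg <;> [positivity; linarith]
      · rw [Matrix.diagonal_apply_ne _ hik]
        rw [if_neg, mul_zero]
        intro h; apply hik; ext; omega
    · intro j _ hj
      rw [if_neg]
      · simp
      · intro h; apply hj; ext; simp; omega
    · simp

lemma spinM_two : spinM d 2 = diagonal (fun j : Fin (d + 1) => ((d : ℂ) / 2 - (j : ℕ))) := rfl

lemma spinM_zero : spinM d 0 = (1 / 2 : ℂ) • (raiseM d + (raiseM d)ᴴ) := rfl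

lemma spinM_one : spinM d 1 = (-Complex.I / 2) • (raiseM d - (raiseM d)ᴴ) := rfl

/-- `[S⁺, S⁻] = 2 S³` -/
lemma comm_raise_lower : raiseM d * (raiseM d)ᴴ - (raiseM d)ᴴ * raiseM d
    = (2 : ℂ) • spinM d 2 := by
  rw [raise_mul_lower, lower_mul_raise, spinM_two, Matrix.diagonal_sub, ← Matrix.diagonal_smul]
  congr 1
  ext i
  simp only [Pi.smul_apply, smul_eq_mul]
  ring

/-- `[S³, S⁺] = S⁺` -/
lemma comm_z_raise : spinM d 2 * raiseM d - raiseM d * spinM d 2 = raiseM d := by
  ext i j
  rw [spinM_two, Matrix.sub_apply, Matrix.diagonal_mul, Matrix.mul_diagonal]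
  simp only [raiseM]
  split_ifs with h
  · have : (((j : ℕ) : ℂ)) = (i : ℕ) + 1 := by rw [← h]; push_cast; ring
    rw [this]; ring
  · ring

/-- `[S³, S⁻] = -S⁻` -/
lemma comm_z_lower : spinM d 2 * (raiseM d)ᴴ - (raiseM d)ᴴ * spinM d 2 = -(raiseM d)ᴴ := by
  ext i j
  rw [spinM_two, Matrix.sub_apply, Matrix.diagonal_mul, Matrix.mul_diagonal, Matrix.neg_apply,
    Matrix.conjTranspose_apply]
  simp only [raiseM]
  split_ifs with h
  · have : (((i : ℕ) : ℂ)) = (j : ℕ) + 1 := by rw [← h]; push_cast; ring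
    rw [this]; ring
  · simp

/-- the commutation relation `[S¹, S²] = i S³` -/
lemma spinM_comm01 : spinM d 0 * spinM d 1 - spinM d 1 * spinM d 0 = Complex.I • spinM d 2 := by
  have h := comm_raise_lower d
  have h2 : spinM d 2 = (1 / 2 : ℂ) • (raiseM d * (raiseM d)ᴴ - (raiseM d)ᴴ * raiseM d) := by
    rw [h, smul_smul]; norm_num
  rw [h2, spinM_zero, spinM_one]
  simp only [Matrix.smul_mul, Matrix.mul_smul, Matrix.mul_add, Matrix.add_mul, Matrix.mul_sub,
    Matrix.sub_mul, smul_add, smul_sub, smul_smul]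
  ext i j
  simp only [Matrix.sub_apply, Matrix.add_apply, Matrix.smul_apply, smul_eq_mul]
  ring

/-- the commutation relation `[S², S³] = i S¹` -/
lemma spinM_comm12 : spinM d 1 * spinM d 2 - spinM d 2 * spinM d 1 = Complex.I • spinM d 0 := by
  have h1 := comm_z_raise d
  have h2 := comm_z_lower d
  have h3 : spinM d 0 = (1 / 2 : ℂ) • ((spinM d 2 * raiseM d - raiseM d * spinM d 2)
      - (spinM d 2 * (raiseM d)ᴴ - (raiseM d)ᴴ * spinM d 2)) := by
    rw [h1, h2, spinM_zero, sub_neg_eq_add]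
  rw [h3, spinM_one]
  simp only [Matrix.smul_mul, Matrix.mul_smul, Matrix.mul_sub, Matrix.sub_mul, smul_sub, smul_smul]
  ext i j
  simp only [Matrix.sub_apply, Matrix.smul_apply, smul_eq_mul]
  ring

/-- the commutation relation `[S³, S¹] = i S²` -/
lemma spinM_comm20 : spinM d 2 * spinM d 0 - spinM d 0 * spinM d 2 = Complex.I • spinM d 1 := by
  have h1 := comm_z_raise d
  have h2 := comm_z_lower d
  have h3 : spinM d 1 = (-Complex.I / 2) • ((spinM d 2 * raiseM d - raiseM d * spinM d 2)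
      + (spinM d 2 * (raiseM d)ᴴ - (raiseM d)ᴴ * spinM d 2)) := by
    rw [h1, h2, spinM_one, sub_eq_add_neg]
  rw [h3, spinM_zero]
  simp only [Matrix.smul_mul, Matrix.mul_smul, Matrix.mul_add, Matrix.add_mul, smul_add, smul_sub,
    smul_smul]
  ext i j
  simp only [Matrix.sub_apply, Matrix.add_apply, Matrix.smul_apply, smul_eq_mul]
  linear_combination (1 / 2 * ((spinM d 2 * raiseM d) i j - (raiseM d * spinM d 2) i j
    + (spinM d 2 * (raiseM d)ᴴ) i j - ((raiseM d)ᴴ * spinM d 2) i j)) * (Complex.I_sq)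

/-- the Casimir relation `(S¹)² + (S²)² + (S³)² = S(S+1)` -/
lemma spinM_casimir : spinM d 0 * spinM d 0 + spinM d 1 * spinM d 1 + spinM d 2 * spinM d 2
    = ((d : ℂ) / 2 * (d / 2 + 1)) • (1 : Matrix (Fin (d + 1)) (Fin (d + 1)) ℂ) := by
  have h1 : spinM d 0 * spinM d 0 + spinM d 1 * spinM d 1
      = (1 / 2 : ℂ) • (raiseM d * (raiseM d)ᴴ + (raiseM d)ᴴ * raiseM d) := by
    rw [spinM_zero, spinM_one]
    simp only [Matrix.smul_mul, Matrix.mul_smul, Matrix.mul_add, Matrix.add_mul, Matrix.mul_sub,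
      Matrix.sub_mul, smul_add, smul_sub, smul_smul]
    ext i j
    simp only [Matrix.sub_apply, Matrix.add_apply, Matrix.smul_apply, smul_eq_mul]
    linear_combination (1 / 4 * ((raiseM d * raiseM d) i j - (raiseM d * (raiseM d)ᴴ) i j
      - ((raiseM d)ᴴ * raiseM d) i j + ((raiseM d)ᴴ * (raiseM d)ᴴ) i j)) * (Complex.I_sq)
  rw [h1, raise_mul_lower, lower_mul_raise, spinM_two, Matrix.diagonal_mul_diagonal,
    Matrix.diagonal_add, ← Matrix.diagonal_smul, Matrix.diagonal_add, ← Matrix.diagonal_one,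
    ← Matrix.diagonal_smul]
  congr 1
  ext i
  simp only [Pi.smul_apply, smul_eq_mul]
  ring

end Vale.Agent.P361
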