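import Vale.Agent.P361.Bounds

/-!
# Thermodynamic limit and the spontaneous magnetisation
-/

namespace Vale.Agent.P361

open Matrix Filter Topology

lemma hamiltonian_eq (d N : ℕ) : hamiltonian d N = hamG d (nn N) := rfl

lemma totalSpin_eq (d N : ℕ) : totalSpin d N = magG d := rfl

lemma finitePressure_eq (d N : ℕ) (β h : ℝ) : finitePressure d N β h
    = 1 / (β * Fintype.card (box N)) * Real.log (Zf d (nn N) β h) := by
  unfold finitePressure Zf gE gibbsK
  rw [Matrix.mul_one, hamiltonian_eq, totalSpin_eq]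

/-- magnetisation per site -/
noncomputable def magN (d N : ℕ) (β h : ℝ) : ℝ :=
  Mf d (nn N) β h / Zf d (nn N) β h / Fintype.card (box N)

lemma cardpos (N : ℕ) : (0 : ℝ) < Fintype.card (box N) := by
  exact_mod_cast Fintype.card_pos

lemma fp_support (d N : ℕ) {β : ℝ} (hβ : 0 < β) (h h₁ : ℝ) :
    finitePressure d N β h₁ + (h - h₁) * magN d N β h₁ ≤ finitePressure d N β h := by
  rw [finitePressure_eq, finitePressure_eq]
  have h1 := log_Zf_support (d := d) (adj := nn N) nn_ne β h h₁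
  have hc := cardpos N
  have h2 := mul_le_mul_of_nonneg_left h1 (by positivity : 0 ≤ 1 / (β * Fintype.card (box N)))
  refine le_trans (le_of_eq ?_) h2
  unfold magN
  field_simp

lemma abs_magN_le (d N : ℕ) (β h : ℝ) : |magN d N β h| ≤ d / 2 := by
  unfold magN
  have hc := cardpos N
  rw [abs_div, abs_of_pos hc, div_le_iff₀ hc]
  have := abs_Mf_le (d := d) (adj := nn N) nn_ne β h
  linarith

lemma fp_convex (d N : ℕ) {β : ℝ} (hβ : 0 < β) :
    ConvexOn ℝ Set.univ (fun h => finitePressure d N β h) := by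
  refine ⟨convex_univ, ?_⟩
  intro x _ y _ a b ha hb hab
  simp only [smul_eq_mul]
  have h1 := fp_support d N hβ x (a * x + b * y)
  have h2 := fp_support d N hβ y (a * x + b * y)
  have h3 := mul_le_mul_of_nonneg_left h1 ha
  have h4 := mul_le_mul_of_nonneg_left h2 hb
  have h5 : a * ((x - (a * x + b * y)) * magN d N β (a * x + b * y))
      + b * ((y - (a * x + b * y)) * magN d N β (a * x + b * y)) = 0 := by
    have : b = 1 - a := by linarith
    subst this
    ring
  have h6 : (a + b) * finitePressure d N β (a * x + b * y)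
      = finitePressure d N β (a * x + b * y) := by rw [hab, one_mul]
  nlinarith

lemma nbr_total (N : ℕ) (x : box N) : (∑ y : box N, if nn N x y then (1 : ℝ) else 0) ≤ 6 := by
  have h1 : ∀ y : box N, (if nn N x y then (1 : ℝ) else 0)
      = ∑ j : Fin 3, (if nn N x y then ((|(y : Fin 3 → ℤ) j - (x : Fin 3 → ℤ) j| : ℤ) : ℝ) else 0) := by
    intro y
    by_cases hy : nn N x y
    · simp only [if_pos hy]
      have := nn_symm x y hy
      unfold nn at this
      exact_mod_cast this.symm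
    · simp [if_neg hy]
  rw [Finset.sum_congr rfl fun y _ => h1 y, Finset.sum_comm]
  calc _ ≤ ∑ _j : Fin 3, (2 : ℝ) := Finset.sum_le_sum fun j _ => nbr_count N x j
    _ = 6 := by simp; norm_num

/-- uniform bound -/
noncomputable def bndC (d : ℕ) (β : ℝ) : ℝ :=
  (Real.log (d + 1) + β / 2 * 6 * ((d : ℝ) / 2 * (d / 2 + 1))) / β

lemma fp_bound0 (d N : ℕ) {β : ℝ} (hβ : 0 < β) : |finitePressure d N β 0| ≤ bndC d β := by
  rw [finitePressure_eq, abs_mul]
  have hc := cardpos N
  have h1 := log_Zf0_bounds (d := d) (adj := nn N) nn_ne hβ 6 (fun x => nbr_total N x)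
  rw [abs_of_nonneg (by positivity : 0 ≤ 1 / (β * (Fintype.card (box N) : ℝ)))]
  have h2 := mul_le_mul_of_nonneg_left h1 (by positivity : 0 ≤ 1 / (β * (Fintype.card (box N) : ℝ)))
  refine h2.trans (le_of_eq ?_)
  unfold bndC
  field_simp

lemma fp_bound (d N : ℕ) {β : ℝ} (hβ : 0 < β) (h : ℝ) :
    |finitePressure d N β h| ≤ bndC d β + |h| * (d / 2) := by
  have h0 := fp_bound0 d N hβ
  have h1 := fp_support d N hβ h 0
  have h2 := fp_support d N hβ 0 h
  have m0 := abs_magN_le d N β 0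
  have mh := abs_magN_le d N β h
  have e1 : |(h - 0) * magN d N β 0| ≤ |h| * (d / 2) := by
    rw [abs_mul, sub_zero]; exact mul_le_mul_of_nonneg_left m0 (abs_nonneg _)
  have e2 : |(0 - h) * magN d N β h| ≤ |h| * (d / 2) := by
    rw [abs_mul, zero_sub, abs_neg]; exact mul_le_mul_of_nonneg_left mh (abs_nonneg _)
  rw [abs_le] at *
  constructor <;> linarith [h0.1, h0.2, e1.1, e1.2, e2.1, e2.2]

lemma fp_bdd (d : ℕ) {β : ℝ} (hβ : 0 < β) (h : ℝ) :
    IsBoundedUnder (· ≤ ·) atTop (fun N : ℕ => finitePressure d N β h) :=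
  isBoundedUnder_of ⟨bndC d β + |h| * (d / 2), fun N => (abs_le.mp (fp_bound d N hβ h)).2⟩

lemma fp_cobdd (d : ℕ) {β : ℝ} (hβ : 0 < β) (h : ℝ) :
    IsCoboundedUnder (· ≤ ·) atTop (fun N : ℕ => finitePressure d N β h) :=
  IsBoundedUnder.isCoboundedUnder_le
    (isBoundedUnder_of ⟨-(bndC d β + |h| * (d / 2)), fun N => (abs_le.mp (fp_bound d N hβ h)).1⟩)

lemma pressure_convex (d : ℕ) {β : ℝ} (hβ : 0 < β) :
    ConvexOn ℝ Set.univ (pressure d β) := by
  refine ⟨convex_univ, ?_⟩
  intro x _ y _ a b ha hb hab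
  simp only [smul_eq_mul]
  refine le_of_forall_pos_le_add fun ε hε => ?_
  have hx : ∀ᶠ N : ℕ in atTop, finitePressure d N β x < pressure d β x + ε :=
    eventually_lt_of_limsup_lt (by unfold pressure; linarith) (fp_bdd d hβ x)
  have hy : ∀ᶠ N : ℕ in atTop, finitePressure d N β y < pressure d β y + ε :=
    eventually_lt_of_limsup_lt (by unfold pressure; linarith) (fp_bdd d hβ y)
  refine limsup_le_of_le (fp_cobdd d hβ _) ?_
  filter_upwards [hx, hy] with N hNx hNy
  have hc := (fp_convex d N hβ).2 (Set.mem_univ x) (Set.mem_univ y) ha hb hab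
  simp only [smul_eq_mul] at hc
  have h3 := mul_le_mul_of_nonneg_left hNx.le ha
  have h4 := mul_le_mul_of_nonneg_left hNy.le hb
  have h5 : a * ε + b * ε = ε := by rw [← add_mul, hab, one_mul]
  linarith

/-- along a subsequence the finite-volume magnetisation at `h > 0` exceeds `m_S(β) - ε` -/
lemma frequently_magN (d : ℕ) {β h ε : ℝ} (hβ : 0 < β) (hh : 0 < h) (hε : 0 < ε) :
    ∃ᶠ N : ℕ in atTop, spontMag d β - ε ≤ magN d N β h := by
  have hslope : spontMag d β ≤ slope (pressure d β) 0 h :=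
    (pressure_convex d hβ).rightDeriv_le_slope_of_mem_interior (by simp) (Set.mem_univ h) hh
  rw [slope_def_field, sub_zero] at hslope
  have h0 : ∀ᶠ N : ℕ in atTop, finitePressure d N β 0 < pressure d β 0 + ε * h / 2 := by
    refine eventually_lt_of_limsup_lt ?_ (fp_bdd d hβ 0)
    have : 0 < ε * h / 2 := by positivity
    unfold pressure; linarith
  have h1 : ∃ᶠ N : ℕ in atTop, pressure d β h - ε * h / 2 < finitePressure d N β h := by
    refine frequently_lt_of_lt_limsup (fp_cobdd d hβ h) ?_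
    have : 0 < ε * h / 2 := by positivity
    unfold pressure; linarith
  refine (h1.and_eventually h0).mono fun N hN => ?_
  have h2 := fp_support d N hβ 0 h
  have h3 : spontMag d β * h ≤ pressure d β h - pressure d β 0 := by
    rwa [le_div_iff₀ hh] at hslope
  have h4 : (spontMag d β - ε) * h ≤ magN d N β h * h := by
    nlinarith [hN.1, hN.2]
  exact le_of_mul_le_mul_right h4 hh

lemma tendsto_inv_odd : Tendsto (fun N : ℕ => (1 : ℝ) / (2 * N + 1)) atTop (𝓝 0) := by
  have h1 : Tendsto (fun N : ℕ => (2 * (N : ℝ) + 1)) atTop atTop := by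
    apply tendsto_atTop_add_const_right
    exact Tendsto.const_mul_atTop (by norm_num) tendsto_natCast_atTop_atTop
  exact tendsto_const_nhds.div_atTop h1

/-- **Non-asymptotic bound** in terms of a comparison value `m₀ < m_S(β)`. -/
theorem spontMag_bound (d : ℕ) {β m₀ : ℝ} (hβ : 0 < β) (hm0 : 0 < m₀)
    (hlt : m₀ < spontMag d β) (M : ℕ) :
    m₀ * ∑ n ∈ Finset.range M,
        (gaussI (((n : ℝ) + 1) * (β * ((d : ℝ) / 2 * (d - m₀) / m₀)))) ^ 3
      ≤ (d / 2 : ℝ) * (d / 2 - spontMag d β) := by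
  set g : ℕ → ℝ := fun n => gaussI (((n : ℝ) + 1) * (β * ((d : ℝ) / 2 * (d - m₀) / m₀))) with hg
  -- step 1: fixed h > 0 and ε
  have step1 : ∀ h : ℝ, 0 < h → ∀ ε : ℝ, 0 < ε → ε < spontMag d β - m₀ →
      m₀ * ∑ n ∈ Finset.range M, Real.exp (-((n : ℝ) + 1) * (β * h)) * (g n) ^ 3
        ≤ (d / 2 : ℝ) * (d / 2 - (spontMag d β - ε)) := by
    intro h hh ε hε hεlt
    have hlim : Tendsto (fun N : ℕ => m₀ * ∑ n ∈ Finset.range M,
        Real.exp (-((n : ℝ) + 1) * (β * h)) * (g n - 1 / (2 * (N : ℝ) + 1)) ^ 3) atTop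
        (𝓝 (m₀ * ∑ n ∈ Finset.range M, Real.exp (-((n : ℝ) + 1) * (β * h)) * (g n) ^ 3)) := by
      apply Tendsto.const_mul
      apply tendsto_finsetSum
      intro n _
      apply Tendsto.const_mul
      have : Tendsto (fun N : ℕ => g n - 1 / (2 * (N : ℝ) + 1)) atTop (𝓝 (g n - 0)) :=
        tendsto_const_nhds.sub tendsto_inv_odd
      rw [sub_zero] at this
      exact this.pow 3
    refine le_of_tendsto_of_frequently hlim ?_
    refine (frequently_magN d hβ hh hε).mono fun N hN => ?_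
    have hmm : m₀ ≤ magN d N β h := by linarith
    have hmd : magN d N β h ≤ d / 2 := (abs_le.mp (abs_magN_le d N β h)).2
    have hkey : gE (gibbsK d (nn N) β h) (magG d)
        = Fintype.card (box N) * gE (gibbsK d (nn N) β h) 1 * magN d N β h := by
      have hZ := Zf_pos (d := d) (adj := nn N) nn_ne β h
      have hc := cardpos N
      change Mf d (nn N) β h = Fintype.card (box N) * Zf d (nn N) β h * magN d N β h
      unfold magN
      field_simp
    have h1 := box_final hβ hh hm0 hmm hmd N M hkey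
    refine h1.trans ?_
    apply mul_le_mul_of_nonneg_left _ (by positivity)
    linarith
  -- step 2: ε → 0
  have step2 : ∀ h : ℝ, 0 < h →
      m₀ * ∑ n ∈ Finset.range M, Real.exp (-((n : ℝ) + 1) * (β * h)) * (g n) ^ 3
        ≤ (d / 2 : ℝ) * (d / 2 - spontMag d β) := by
    intro h hh
    have hlim : Tendsto (fun ε : ℝ => (d / 2 : ℝ) * (d / 2 - (spontMag d β - ε))) (𝓝[>] 0)
        (𝓝 ((d / 2 : ℝ) * (d / 2 - (spontMag d β - 0)))) := by
      apply tendsto_nhdsWithin_of_tendsto_nhds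
      apply Continuous.tendsto
      fun_prop
    rw [sub_zero] at hlim
    refine ge_of_tendsto hlim ?_
    have hmem : Set.Ioo (0 : ℝ) (spontMag d β - m₀) ∈ 𝓝[>] (0 : ℝ) :=
      Ioo_mem_nhdsGT (by linarith)
    filter_upwards [hmem] with ε hε
    exact step1 h hh ε hε.1 hε.2
  -- step 3: h → 0
  have hlim : Tendsto (fun h : ℝ => m₀ * ∑ n ∈ Finset.range M,
      Real.exp (-((n : ℝ) + 1) * (β * h)) * (g n) ^ 3) (𝓝[>] 0)
      (𝓝 (m₀ * ∑ n ∈ Finset.range M, Real.exp (-((n : ℝ) + 1) * (β * 0)) * (g n) ^ 3)) := by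
    apply tendsto_nhdsWithin_of_tendsto_nhds
    apply Continuous.tendsto
    fun_prop
  have h4 := le_of_tendsto hlim (by
    filter_upwards [self_mem_nhdsWithin] with h hh
    exact step2 h hh)
  simpa using h4

end Vale.Agent.P361
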